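import Mathlib
import Vale.Agent.P078.Type3.Specs

/-! The space of the subalgebra is extremally disconnected; coincidence sets of partial translations
are clopen (Frolík) and densities agree there; consequences for graph operators. -/

noncomputable section

open scoped ComplexOrder
open Classical Filter Topology

set_option linter.unusedSectionVars false

namespace Vale.Agent.P078.T3

universe u v w

variable {M : Type u} [CStarAlgebra M] [PartialOrder M] [StarOrderedRing M]
  {Ω : Type v} [TopologicalSpace Ω] [CompactSpace Ω] [T2Space Ω]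

/-- Frolík: in an extremally disconnected space the fixed points of a partial homeomorphism
between clopen sets form a clopen set. -/
theorem isClopen_fixed {X : Type v} [TopologicalSpace X] [T2Space X] [ExtremallyDisconnected X]
    {R D : Set X} (hR : IsClopen R) (hD : IsClopen D) {φ ψ : X → X} (hφ : Continuous φ)
    (hψ : Continuous ψ) (h1 : Set.MapsTo φ R D) (h3 : ∀ x ∈ R, ψ (φ x) = x)
    (h4 : ∀ x ∈ D, φ (ψ x) = x) : IsClopen {x | x ∈ R ∧ φ x = x} := by
  set S : Set (Set X) := {U | IsOpen U ∧ ∀ b ∈ U, b ∈ R → φ b ∉ U} with hS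
  obtain ⟨U, hU⟩ : ∃ U, Maximal (· ∈ S) U := by
    refine zorn_subset S fun c hc hch => ⟨⋃₀ c, ⟨isOpen_sUnion fun s hs => (hc hs).1, ?_⟩,
      fun s hs => Set.subset_sUnion_of_mem hs⟩
    rintro b ⟨s, hs, hbs⟩ hbR ⟨t, ht, hbt⟩
    rcases hch.total hs ht with h | h
    · exact (hc ht).2 b (h hbs) hbR hbt
    · exact (hc hs).2 b hbs hbR (h hbt)
  obtain ⟨⟨hUo, hUd⟩, hmax⟩ := hU
  have hCo : IsOpen (closure U) := ExtremallyDisconnected.open_closure U hUo
  have hUc : closure U = U := by
    refine Set.Subset.antisymm (hmax ⟨hCo, fun b hb hbR hφb => ?_⟩ subset_closure) subset_closure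
    obtain ⟨b', ⟨⟨_, hb'R⟩, hb'C⟩, hb'U⟩ := mem_closure_iff.1 hb
      (closure U ∩ R ∩ φ ⁻¹' closure U) ((hCo.inter hR.2).inter (hCo.preimage hφ)) ⟨⟨hb, hbR⟩, hφb⟩
    obtain ⟨y, ⟨hyD, hyU, hyR⟩, hy⟩ := mem_closure_iff.1 hb'C (D ∩ ψ ⁻¹' (U ∩ R))
      (hD.2.inter ((hUo.inter hR.2).preimage hψ))
      ⟨h1 hb'R, by show ψ (φ b') ∈ U ∩ R; rw [h3 b' hb'R]; exact ⟨hb'U, hb'R⟩⟩
    exact hUd (ψ y) hyU hyR (by rwa [h4 y hyD])
  have hUcl : IsClosed U := hUc ▸ isClosed_closure
  have key : {x | x ∈ R ∧ φ x = x} = R ∩ (U ∪ φ ⁻¹' U ∪ (D ∩ ψ ⁻¹' U))ᶜ := by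
    ext x
    constructor
    · rintro ⟨hxR, hx⟩
      refine ⟨hxR, ?_⟩
      rintro ((h | h) | ⟨-, h⟩)
      · exact hUd x h hxR (by rwa [hx])
      · have h' : x ∈ U := by simpa [hx] using h
        exact hUd x h' hxR (by rwa [hx])
      · have h' : ψ (φ x) ∈ U := by rw [hx]; exact h
        rw [h3 x hxR] at h'
        exact hUd x h' hxR (by rwa [hx])
    · rintro ⟨hxR, hx⟩
      refine ⟨hxR, ?_⟩
      by_contra hne
      obtain ⟨A, B, hA, hB, hxA, hxB, hAB⟩ := t2_separation (Ne.symm hne)
      set V := A ∩ φ ⁻¹' B ∩ R ∩ Uᶜ ∩ (φ ⁻¹' U)ᶜ ∩ (D ∩ ψ ⁻¹' U)ᶜ with hV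
      have hVo : IsOpen V :=
        ((((hA.inter (hB.preimage hφ)).inter hR.2).inter hUcl.isOpen_compl).inter
          (hUcl.preimage hφ).isOpen_compl).inter (hD.1.inter (hUcl.preimage hψ)).isOpen_compl
      simp only [Set.mem_compl_iff, Set.mem_union, not_or] at hx
      have hxV : x ∈ V := ⟨⟨⟨⟨⟨hxA, hxB⟩, hxR⟩, hx.1.1⟩, hx.1.2⟩, hx.2⟩
      refine hx.1.1 (hmax ⟨hUo.union hVo, ?_⟩ Set.subset_union_left (Or.inr hxV))
      rintro b (hb | hb) hbR (hb' | hb')
      · exact hUd b hb hbR hb'
      · exact hb'.2 ⟨h1 hbR, by show ψ (φ b) ∈ U; rwa [h3 b hbR]⟩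
      · exact hb.1.2 hb'
      · exact Set.disjoint_left.1 hAB hb'.1.1.1.1.1 hb.1.1.1.1.2
  refine ⟨?_, ?_⟩
  · exact hR.1.inter (isClosed_eq hφ continuous_id)
  · rw [key]
    exact hR.2.inter ((hUcl.union (hUcl.preimage hφ)).union
      (hD.1.inter (hUcl.preimage hψ))).isOpen_compl

/-- the set where an idempotent is `1` -/
lemma isClopen_idem {p : C(Ω, ℝ)} (hp : p * p = p) : IsClopen {b | p b = 1} := by
  refine ⟨isClosed_eq p.continuous continuous_const, ?_⟩
  have : {b | p b = 1} = p ⁻¹' Set.Ioi (1 / 2 : ℝ) := by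
    ext b
    rcases idem_zero_or_one hp b with h | h <;> norm_num [h]
  rw [this]
  exact isOpen_Ioi.preimage p.continuous

/-- the indicator of a clopen set -/
def cind (U : Set Ω) (hU : IsClopen U) : C(Ω, ℝ) :=
  ⟨Set.indicator U 1, continuous_const.indicator fun ω hω => by simp [hU.frontier_eq] at hω⟩

lemma cind_apply (U : Set Ω) (hU : IsClopen U) (ω : Ω) :
    cind U hU ω = if ω ∈ U then 1 else 0 := by
  simp [cind, Set.indicator]

lemma cind_mul_self (U : Set Ω) (hU : IsClopen U) : cind U hU * cind U hU = cind U hU := by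
  ext ω; simp [cind_apply]

namespace SMasa

variable (T : SMasa M Ω)

lemma eq_zero_of_tau_eq_zero {f : C(Ω, ℝ)} (h : 0 ≤ f) (h' : T.tau f = 0) : f = 0 :=
  T.emb_inj ((T.eq_zero_of_tr_eq_zero (T.emb_nonneg h) h').trans (map_zero _).symm)

theorem extremallyDisconnected (T : SMasa M Ω) : ExtremallyDisconnected Ω := by
  refine ⟨fun U hU => ?_⟩
  set S : Set ℝ := {x | ∃ f : C(Ω, ℝ), 0 ≤ f ∧ f ≤ 1 ∧ (∀ ω ∉ closure U, f ω = 0) ∧ T.tau f = x}
    with hS
  have hne : S.Nonempty := ⟨T.tau 0, 0, le_rfl, fun ω => zero_le_one, fun ω _ => rfl, rfl⟩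
  have hbdd : BddAbove S := ⟨1, by
    rintro _ ⟨f, -, hf1, -, rfl⟩
    simpa [T.tau_one] using T.tau_mono hf1⟩
  have hapx : ∀ n : ℕ, ∃ f : C(Ω, ℝ), 0 ≤ f ∧ f ≤ 1 ∧ (∀ ω ∉ closure U, f ω = 0) ∧
      sSup S - 1 / (n + 1) < T.tau f := by
    intro n
    obtain ⟨_, ⟨f, a, b, c, rfl⟩, hlt⟩ := exists_lt_of_lt_csSup hne
      (show sSup S - 1 / ((n : ℝ) + 1) < sSup S by
        have : (0 : ℝ) < 1 / ((n : ℝ) + 1) := by positivity
        linarith)
    exact ⟨f, a, b, c, hlt⟩
  choose f hf0 hf1 hfs hfl using hapx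
  have hsum : Summable fun n => ((1 / 2 : ℝ) ^ n) • f n := by
    refine Summable.of_norm_bounded (g := fun n => (1 / 2 : ℝ) ^ n) summable_geometric_two
      fun n => ?_
    rw [norm_smul, norm_pow, Real.norm_eq_abs, abs_of_pos (by norm_num : (0:ℝ) < 1 / 2)]
    refine mul_le_of_le_one_right (by positivity) ((ContinuousMap.norm_le _ zero_le_one).2 fun ω => ?_)
    have a : 0 ≤ f n ω := hf0 n ω
    have b : f n ω ≤ 1 := hf1 n ω
    rw [Real.norm_eq_abs, abs_of_nonneg a]
    exact b
  set g := ∑' n, ((1 / 2 : ℝ) ^ n) • f n with hg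
  have hgω : ∀ ω, HasSum (fun n => (1 / 2 : ℝ) ^ n * f n ω) (g ω) := fun ω =>
    ContinuousMap.hasSum_apply hsum.hasSum ω
  have hsub : TMasa.hull g ⊆ closure U := by
    refine closure_minimal (fun ω hω => ?_) isClosed_closure
    by_contra hn
    have := (hgω ω).unique (show HasSum (fun n => (1 / 2 : ℝ) ^ n * f n ω) 0 by
      simpa [fun n => hfs n ω hn] using (hasSum_zero : HasSum (fun _ : ℕ => (0 : ℝ)) 0))
    simp only [Set.mem_ofPred_eq] at hω
    linarith
  have hpU : ∀ ω ∉ closure U, T.pos g ω = 0 := fun ω hω => by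
    rw [pos_apply, Set.indicator_of_notMem fun h => hω (hsub h)]
  have hfle : ∀ n, f n ≤ T.pos g := by
    intro n ω
    show f n ω ≤ T.pos g ω
    by_cases h : ω ∈ TMasa.hull g
    · simpa [pos_apply, h] using hf1 n ω
    · have h0 := TMasa.nonpos_of_not_mem_hull h
      have h1 := le_hasSum (hgω ω) n (fun m _ => mul_nonneg (by positivity) (hf0 m ω))
      have h2 : 0 ≤ f n ω := hf0 n ω
      have h3 : (0 : ℝ) < (1 / 2) ^ n := by positivity
      rw [pos_apply, Set.indicator_of_notMem h]
      nlinarith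
  suffices h : closure U = TMasa.hull g by rw [h]; exact (T.isClopen_hull g).2
  refine Set.Subset.antisymm (closure_minimal (fun x hx => ?_) isClosed_closure) hsub
  by_contra hxg
  obtain ⟨φ, hφ0, hφ1, hφr⟩ := exists_continuous_zero_one_of_isClosed
    (s := (U ∩ (TMasa.hull g)ᶜ)ᶜ) (hU.inter (T.isClopen_hull g).1.isOpen_compl).isClosed_compl
    (isClosed_singleton (x := x)) (Set.disjoint_singleton_right.2 fun h => h ⟨hx, hxg⟩)
  have hpos : 0 < T.tau φ := by
    refine lt_of_le_of_ne (T.tau_nonneg fun ω => (hφr ω).1) fun h => ?_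
    have := DFunLike.congr_fun (T.eq_zero_of_tau_eq_zero (fun ω => (hφr ω).1) h.symm) x
    rw [hφ1 rfl] at this
    simp at this
  have hadm : T.tau (T.pos g + φ) ∈ S := by
    refine ⟨_, fun ω => ?_, fun ω => ?_, fun ω hω => ?_, rfl⟩
    · have := (hφr ω).1
      show 0 ≤ T.pos g ω + φ ω
      by_cases h : ω ∈ TMasa.hull g <;> simp [pos_apply, h] <;> linarith
    · by_cases h : ω ∈ TMasa.hull g
      · simp [pos_apply, h, show φ ω = 0 from hφ0 (fun hh => hh.2 h)]
      · simpa [pos_apply, h] using (hφr ω).2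
    · simp [hpU ω hω, show φ ω = 0 from hφ0 (fun hh => hω (subset_closure hh.1))]
  have hle := le_csSup hbdd hadm
  obtain ⟨n, hn⟩ := exists_nat_one_div_lt hpos
  have h1 := hfl n
  have h2 := T.tau_mono (hfle n)
  rw [map_add] at hle
  linarith

end SMasa

namespace GElt

variable {T : SMasa M Ω}

/-- the fixed points of a partial translation -/
def fixSet (g : GElt T) : Set Ω := {b | g.ran b = 1 ∧ g.toDom b = b}

lemma isClopen_fixSet (g : GElt T) : IsClopen g.fixSet := by
  haveI := T.extremallyDisconnected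
  exact isClopen_fixed (R := {b | g.ran b = 1}) (D := {a | g.dom a = 1}) (isClopen_idem g.ran_idem)
    (isClopen_idem g.dom_idem) g.toDom.continuous g.toRan.continuous g.dom_toDom g.toRan_toDom
    g.toDom_toRan

lemma dens_fix (g : GElt T) {b : Ω} (hb : b ∈ g.fixSet) : g.dens b = 1 := by
  set a := cind g.fixSet g.isClopen_fixSet with ha
  have key : ∀ φ : C(Ω, ℝ), T.tau (a * φ * g.dens) = T.tau (a * φ) := by
    intro φ
    have h := g.tau_dens (a * φ)
    have e1 : g.ran * (a * φ).comp g.toDom * g.dens = a * φ * g.dens := by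
      ext ω
      simp only [ContinuousMap.mul_apply, ContinuousMap.comp_apply, ha, cind_apply]
      rcases idem_zero_or_one g.ran_idem ω with h0 | h0
      · have : ω ∉ g.fixSet := fun hh => by simpa [h0] using hh.1
        simp [h0, this]
      · by_cases hf : ω ∈ g.fixSet
        · simp [h0, hf, hf.2]
        · have : g.toDom ω ∉ g.fixSet := by
            rintro ⟨hr, hf'⟩
            refine hf ⟨h0, ?_⟩
            have h5 := congrArg g.toRan hf'
            rwa [g.toRan_toDom _ h0, g.toRan_toDom _ hr] at h5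
          simp [hf, this]
    have e2 : g.dom * (a * φ) = a * φ := by
      ext ω
      simp only [ContinuousMap.mul_apply, ha, cind_apply]
      by_cases hf : ω ∈ g.fixSet
      · have := g.dom_toDom ω hf.1
        rw [hf.2] at this
        simp [hf, this]
      · simp [hf]
    rwa [e1, e2] at h
  set d : C(Ω, ℝ) := a * (g.dens - 1) with hd
  have h2 : T.tau (d * d) = 0 := by
    have := key (g.dens - 1)
    have e : d * d = a * (g.dens - 1) * g.dens - a * (g.dens - 1) := by
      rw [hd]
      linear_combination (g.dens - 1) * (g.dens - 1) * (cind_mul_self g.fixSet g.isClopen_fixSet)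
    rw [e, map_sub, this, sub_self]
  have h3 := DFunLike.congr_fun (T.eq_zero_of_tau_eq_zero (fun ω => mul_self_nonneg _) h2) b
  simp [hd, ha, cind_apply, hb, sub_eq_zero] at h3
  exact h3

lemma mem_fixSet_mul_inv (g h : GElt T) {b : Ω} (hg : g.ran b = 1) (hh : h.ran b = 1)
    (he : g.toDom b = h.toDom b) : b ∈ (h.mul g.inv).fixSet := by
  refine ⟨?_, ?_⟩
  · show h.ran b * g.dom (h.toDom b) = 1
    rw [hh, ← he, g.dom_toDom b hg, one_mul]
  · show g.toRan (h.toDom b) = b
    rw [← he, g.toRan_toDom b hg]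

lemma eq_of_mem_fixSet_mul_inv (g h : GElt T) {b : Ω} (hb : b ∈ (h.mul g.inv).fixSet) :
    g.ran b = 1 ∧ h.ran b = 1 ∧ g.toDom b = h.toDom b := by
  obtain ⟨h1, h2⟩ := hb
  change h.ran b * g.dom (h.toDom b) = 1 at h1
  change g.toRan (h.toDom b) = b at h2
  rcases idem_zero_or_one h.ran_idem b with e | e
  · rw [e, zero_mul] at h1; exact absurd h1 zero_ne_one
  · rw [e, one_mul] at h1
    refine ⟨?_, e, ?_⟩
    · rw [← h2]; exact g.ran_toRan _ h1
    · conv_lhs => rw [← h2]
      exact g.toDom_toRan _ h1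

/-- the set of agreement of two partial translations -/
lemma isClopen_agree (g h : GElt T) :
    IsClopen {b | g.ran b = 1 ∧ h.ran b = 1 ∧ g.toDom b = h.toDom b} := by
  convert (h.mul g.inv).isClopen_fixSet using 1
  ext b
  exact ⟨fun hb => mem_fixSet_mul_inv g h hb.1 hb.2.1 hb.2.2, eq_of_mem_fixSet_mul_inv g h⟩

end GElt

/-- densities are determined by the pair of points -/
theorem densSpec (T : SMasa M Ω) : DensSpec T := by
  intro g h b hg hh he
  have h1 := (h.mul g.inv).dens_fix (GElt.mem_fixSet_mul_inv g h hg hh he)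
  change h.dens b * g.dens' (h.toDom b) = 1 at h1
  rw [← he] at h1
  exact mul_right_cancel₀ (g.dens'_pos _).ne' ((g.dens_inv b hg).trans h1.symm)

lemma eventually_sep (T : SMasa M Ω) (g h : GElt T) :
    ∀ᶠ P : Part Ω in atTop, ∀ (b : Ω) (i : Fin P.n), g.ran b = 1 → h.ran b = 1 →
      P.e i (g.toDom b) = 1 → P.e i (h.toDom b) = 1 → g.toDom b = h.toDom b := by
  haveI := T.extremallyDisconnected
  set D : Set Ω := {b | g.ran b = 1} ∩ {b | h.ran b = 1} ∩
    {b | g.ran b = 1 ∧ h.ran b = 1 ∧ g.toDom b = h.toDom b}ᶜ with hD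
  have hDc : IsCompact D := (((isClopen_idem g.ran_idem).1.inter
    (isClopen_idem h.ran_idem).1).inter (GElt.isClopen_agree g h).2.isClosed_compl).isCompact
  have hcov : D ⊆ ⋃ V : {V : Set Ω // IsClopen V}, g.toDom ⁻¹' V.1 ∩ h.toDom ⁻¹' V.1ᶜ := by
    rintro b ⟨⟨hg, hh⟩, hne⟩
    obtain ⟨V, hV, h1, h2⟩ := exists_isClopen_of_totally_separated
      (show g.toDom b ≠ h.toDom b from fun e => hne ⟨hg, hh, e⟩)
    exact Set.mem_iUnion.2 ⟨⟨V, hV⟩, h1, h2⟩
  obtain ⟨s, hs⟩ := hDc.elim_finite_subcover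
    (fun V : {V : Set Ω // IsClopen V} => g.toDom ⁻¹' V.1 ∩ h.toDom ⁻¹' V.1ᶜ)
    (fun V => (V.2.2.preimage g.toDom.continuous).inter (V.2.compl.2.preimage h.toDom.continuous))
    hcov
  filter_upwards [(eventually_all_finset s).2 fun V _ =>
    eventually_ge_atTop (Part.split (cind V.1 V.2) (cind_mul_self _ _))] with P hP
  intro b i hg hh h1 h2
  by_contra hne
  obtain ⟨V, hVs, hV⟩ := Set.mem_iUnion₂.1
    (hs (show b ∈ D from ⟨⟨hg, hh⟩, fun e => hne e.2.2⟩))
  rcases Part.eq_or_zero_of_split (hP V hVs) i with e | e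
  · have := DFunLike.congr_fun e (h.toDom b)
    simp [h2, cind_apply, show h.toDom b ∉ V.1 from hV.2] at this
  · have := DFunLike.congr_fun e (g.toDom b)
    simp [h1, cind_apply, show g.toDom b ∈ V.1 from hV.1] at this

/-- finitely many graphs separate distinct images on fine partitions -/
theorem sepSpec (T : SMasa M Ω) : SepSpec T := by
  intro L
  have : ∀ g ∈ L, ∀ h ∈ L, ∀ᶠ P : Part Ω in atTop, ∀ (b : Ω) (i : Fin P.n), g.ran b = 1 →
      h.ran b = 1 → P.e i (g.toDom b) = 1 → P.e i (h.toDom b) = 1 → g.toDom b = h.toDom b :=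
    fun g _ h _ => eventually_sep T g h
  have h2 := (eventually_all_finite L.finite_toSet).2 fun g hg =>
    (eventually_all_finite L.finite_toSet).2 fun h hh => this g hg h hh
  exact h2

namespace GOp

variable {T : SMasa M Ω} {ι κ : Type w}

lemma sum_map_eq_fin {α β : Type*} [AddCommMonoid β] (L : List α) (φ : α → β) :
    (L.map φ).sum = ∑ s : Fin L.length, φ L[s] := by
  rw [← List.sum_ofFn]
  congr 1
  apply List.ext_getElem <;> simp

lemma sum_flatMap_filterMap {α β γ δ : Type*} [AddCommMonoid δ] (L : List α) (R : List β)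
    (p : α → β → Prop) (q : α → β → γ) (φ : γ → δ) :
    ((L.flatMap fun s => R.filterMap fun t => if p s t then some (q s t) else none).map φ).sum
      = (L.map fun s => (R.map fun t => if p s t then φ (q s t) else 0).sum).sum := by
  induction L with
  | nil => simp
  | cons s L ih =>
    rw [List.flatMap_cons, List.map_append, List.sum_append, ih, List.map_cons, List.sum_cons]
    congr 1
    clear ih
    induction R with
    | nil => simp
    | cons t R ih' => by_cases h : p s t <;> simp [h, ih']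

lemma list_sum_apply' (L : List C(Ω, ℝ)) (b : Ω) : L.sum b = (L.map fun f => f b).sum := by
  induction L with
  | nil => simp
  | cons f L ih => simp [ih]

/-- the diagonal of a kernel is continuous -/
theorem exists_diag (S : GOp T ι ι) (i : ι) :
    ∃ d : C(Ω, ℝ), ∀ b, d b = S.ker (b, i) (b, i) := by
  refine ⟨(S.map fun t => if t.row = i ∧ t.col = i
    then t.coef * t.g.ran * cind t.g.fixSet t.g.isClopen_fixSet else 0).sum, fun b => ?_⟩
  rw [list_sum_apply', List.map_map, ker]
  congr 1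
  refine List.map_congr_left fun t _ => ?_
  simp only [Function.comp_apply]
  by_cases h1 : t.row = i ∧ t.col = i
  · rw [if_pos h1]
    rcases idem_zero_or_one t.g.ran_idem b with e | e
    · simp [e]
    · by_cases h2 : t.g.toDom b = b
      · rw [if_pos ⟨h1.1, h1.2, h2⟩]
        simp [cind_apply, GElt.fixSet, e, h2]
      · rw [if_neg fun h => h2 h.2.2]
        simp [cind_apply, GElt.fixSet, h2]
  · rw [if_neg h1, if_neg fun h => h1 ⟨h.1, h.2.1⟩]
    simp

end GOp

/-- the expansion of a sum of squares over blocks -/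
lemma sq_sum_blocks {α J E : Type*} [Fintype α] [Fintype J] [Fintype E] [DecidableEq J]
    (c : α → J) (a : α → E → ℝ) :
    ∑ j, ∑ e, (∑ s, if c s = j then a s e else 0) ^ 2
      = ∑ s, ∑ t, if c s = c t then ∑ e, a s e * a t e else 0 := by
  simp only [sq, Finset.sum_mul_sum]
  rw [Finset.sum_congr rfl fun j _ => Finset.sum_comm, Finset.sum_comm]
  refine Finset.sum_congr rfl fun s _ => ?_
  rw [Finset.sum_congr rfl fun j _ => Finset.sum_comm, Finset.sum_comm]
  refine Finset.sum_congr rfl fun t _ => ?_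
  rw [Finset.sum_eq_single (c s) (fun j _ hj => by simp [Ne.symm hj]) (by simp)]
  by_cases hc : c s = c t
  · simp [hc]
  · simp [hc, Ne.symm hc]

/-- one entry of a product with a transpose -/
lemma pair_eq {T : SMasa M Ω} (g h : GElt T) (u v : C(Ω, ℝ)) (b : Ω) :
    (if h.toRan (g.toDom b) = b
      then (u * (v.comp h.toRan).comp g.toDom) b * (g.ran * h.dom.comp g.toDom) b else 0)
      = if g.toDom b = h.toDom b then (u b * g.ran b) * (v b * h.ran b) else 0 := by
  simp only [ContinuousMap.mul_apply, ContinuousMap.comp_apply]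
  rcases idem_zero_or_one g.ran_idem b with e | e
  · simp [e]
  rcases idem_zero_or_one h.dom_idem (g.toDom b) with a | a
  · rcases idem_zero_or_one h.ran_idem b with a' | a'
    · simp [a, a']
    · have : g.toDom b ≠ h.toDom b := fun hh => by
        have := h.dom_toDom b a'
        rw [← hh, a] at this
        exact zero_ne_one this
      simp [a, this]
  by_cases hd : h.toRan (g.toDom b) = b
  · have h1 : h.ran b = 1 := by rw [← hd]; exact h.ran_toRan _ a
    have h2 : g.toDom b = h.toDom b := by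
      conv_rhs => rw [← hd, h.toDom_toRan _ a]
    rw [if_pos hd, if_pos h2, hd, a, h1, e]
    ring
  · rw [if_neg hd]
    rcases idem_zero_or_one h.ran_idem b with a' | a'
    · simp [a']
    · rw [if_neg fun hh => hd (by rw [hh]; exact h.toRan_toDom b a')]

/-- the expected square of a graph operator applied to random signs -/
theorem exactSpec (T : SMasa M Ω) : ExactSpec T := by
  intro n k S
  filter_upwards [sepSpec T (S.map fun t => t.g)] with P hP
  intro i b
  let w : Fin S.length → ℝ := fun s =>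
    if S[s].row = i then S[s].coef b * S[s].g.ran b else 0
  have happ : ∀ j e, S.app (Pi.single j (P.e e)) i b
      = ∑ s, if S[s].col = j then w s * P.e e (S[s].g.toDom b) else 0 := by
    intro j e
    rw [GOp.app, GOp.list_sum_apply', List.map_map, GOp.sum_map_eq_fin]
    refine Finset.sum_congr rfl fun s _ => ?_
    simp only [Function.comp_apply, w]
    by_cases h1 : S[s].row = i <;> by_cases h2 : S[s].col = j
    · rw [if_pos h1, if_pos h2, if_pos h1, h2, Pi.single_eq_same]; rfl
    · rw [if_pos h1, if_neg h2, Pi.single_eq_of_ne h2]; simp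
    · rw [if_neg h1, if_pos h2, if_neg h1, zero_mul]; rfl
    · rw [if_neg h1, if_neg h2]; rfl
  have hsum1 : ∀ z, ∑ e, P.e e z = 1 := fun z => by
    simpa using DFunLike.congr_fun P.isPartition.sum_one z
  have hblock : ∀ s t, (∑ e, (w s * P.e e (S[s].g.toDom b)) * (w t * P.e e (S[t].g.toDom b)))
      = if S[s].g.toDom b = S[t].g.toDom b then w s * w t else 0 := by
    intro s t
    rw [Finset.sum_congr rfl fun e _ => mul_mul_mul_comm (w s) _ (w t) _, ← Finset.mul_sum]
    by_cases h : S[s].g.toDom b = S[t].g.toDom b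
    · rw [if_pos h, h]
      refine (congrArg (w s * w t * ·) ?_).trans (mul_one _)
      rw [← hsum1 (S[t].g.toDom b)]
      refine Finset.sum_congr rfl fun e _ => ?_
      rcases idem_zero_or_one (P.isPartition.idem e) (S[t].g.toDom b) with a | a <;> rw [a] <;> simp
    rw [if_neg h]
    by_cases hs : S[s].g.ran b = 0
    · rw [show w s = 0 by simp only [w]; rw [hs, mul_zero, ite_self]]; simp
    by_cases ht : S[t].g.ran b = 0
    · rw [show w t = 0 by simp only [w]; rw [ht, mul_zero, ite_self]]; simp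
    rw [Finset.sum_eq_zero, mul_zero]
    intro e _
    rcases idem_zero_or_one (P.isPartition.idem e) (S[s].g.toDom b) with a | a
    · rw [a, zero_mul]
    rcases idem_zero_or_one (P.isPartition.idem e) (S[t].g.toDom b) with a' | a'
    · rw [a', mul_zero]
    exact absurd (hP _ (List.mem_map.2 ⟨_, List.getElem_mem s.2, rfl⟩) _
      (List.mem_map.2 ⟨_, List.getElem_mem t.2, rfl⟩) b e
      ((idem_zero_or_one S[s].g.ran_idem b).resolve_left hs)
      ((idem_zero_or_one S[t].g.ran_idem b).resolve_left ht) a a') h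
  have rhs : (S.mul S.tp).ker (b, i) (b, i) = ∑ s, ∑ t, if S[s].col = S[t].col then
      (if S[s].g.toDom b = S[t].g.toDom b then w s * w t else 0) else 0 := by
    rw [GOp.ker, GOp.mul, GOp.sum_flatMap_filterMap]
    simp only [GOp.tp, List.map_map]
    rw [GOp.sum_map_eq_fin]
    refine Finset.sum_congr rfl fun s _ => ?_
    rw [GOp.sum_map_eq_fin]
    refine Finset.sum_congr rfl fun t _ => ?_
    simp only [Function.comp_apply]
    by_cases hc : S[s].col = S[t].col
    swap
    · rw [if_neg hc, if_neg hc]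
    rw [if_pos hc, if_pos hc]
    by_cases hr : S[s].row = i
    swap
    · rw [if_neg fun h => hr h.1]; simp only [w, if_neg hr, zero_mul, ite_self]
    by_cases hr' : S[t].row = i
    swap
    · rw [if_neg fun h => hr' h.2.1]; simp only [w, if_neg hr', mul_zero, ite_self]
    have key := pair_eq S[s].g S[t].g S[s].coef S[t].coef b
    simp only [w, if_pos hr, if_pos hr']
    rw [← key]
    exact if_congr ⟨fun h => h.2.2, fun h => ⟨hr, hr', h⟩⟩ rfl rfl
  simp only [happ]
  rw [sq_sum_blocks, rhs]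
  exact Finset.sum_congr rfl fun s _ => Finset.sum_congr rfl fun t _ => by rw [hblock]

end Vale.Agent.P078.T3
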