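import Mathlib
import Vale.Agent.P078.Type3.Graph.Fixed

/-! Normalisers give graphs: the partial homeomorphism of a normalising partial isometry and its
density, obtained by maximising a concave functional. -/

noncomputable section

open scoped ComplexOrder
open Classical Filter Topology

set_option linter.unusedSectionVars false

namespace Vale.Agent.P078.T3

universe u v

variable {M : Type u} [CStarAlgebra M] [PartialOrder M] [StarOrderedRing M]
  {Ω : Type v} [TopologicalSpace Ω] [CompactSpace Ω] [T2Space Ω]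

/-- a character of `C(Ω, ℝ)` is an evaluation -/
lemma exists_point (χ : C(Ω, ℝ) →ₐ[ℝ] ℝ) : ∃ x, ∀ f, χ f = f x := by
  by_contra h
  simp only [not_exists, not_forall] at h
  choose f hf using h
  let g : Ω → C(Ω, ℝ) := fun x => f x - algebraMap ℝ C(Ω, ℝ) (χ (f x))
  have hg : ∀ x, χ (g x) = 0 := fun x => by simp [g]
  obtain ⟨s, hs⟩ := isCompact_univ.elim_finite_subcover (fun x => (g x) ⁻¹' {0}ᶜ)
    (fun x => isClosed_singleton.isOpen_compl.preimage (g x).continuous)
    (fun x _ => Set.mem_iUnion.2 ⟨x, by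
      show f x x - algebraMap ℝ C(Ω, ℝ) (χ (f x)) x ≠ 0
      simpa [sub_eq_zero, ne_comm] using fun h => hf x h.symm⟩)
  set S : C(Ω, ℝ) := ∑ x ∈ s, g x * g x with hS
  have hpos : ∀ y, 0 < S y := by
    intro y
    obtain ⟨x, hxs, hx⟩ := Set.mem_iUnion₂.1 (hs (Set.mem_univ y))
    rw [hS, ContinuousMap.sum_apply]
    exact Finset.sum_pos' (fun z _ => mul_self_nonneg _) ⟨x, hxs, mul_self_pos.2 hx⟩
  let I : C(Ω, ℝ) := ⟨fun y => (S y)⁻¹, S.continuous.inv₀ fun y => (hpos y).ne'⟩
  have h1 : S * I = 1 := by ext y; simp [I, mul_inv_cancel₀ (hpos y).ne']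
  have h2 := congrArg χ h1
  rw [map_mul, map_one, hS, map_sum] at h2
  simp [map_mul, hg] at h2

/-- an algebra map of `C(Ω, ℝ)` is the composition with a map of `Ω` -/
lemma exists_dual (Φ : C(Ω, ℝ) →ₐ[ℝ] C(Ω, ℝ)) : ∃ φ : C(Ω, Ω), ∀ f b, Φ f b = f (φ b) := by
  have := fun b : Ω => exists_point
    ((ContinuousMap.evalAlgHom ℝ ℝ b).comp Φ : C(Ω, ℝ) →ₐ[ℝ] ℝ)
  choose φ hφ using this
  refine ⟨⟨φ, continuous_def.2 fun O hO => isOpen_iff_forall_mem_open.2 fun b hb => ?_⟩,
    fun f b => hφ b f⟩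
  obtain ⟨f, hf0, hf1, -⟩ := exists_continuous_zero_one_of_isClosed hO.isClosed_compl
    (isClosed_singleton (x := φ b)) (Set.disjoint_singleton_right.2 fun h => h hb)
  refine ⟨(Φ f) ⁻¹' {0}ᶜ, fun b' hb' => ?_,
    isClosed_singleton.isOpen_compl.preimage (Φ f).continuous, ?_⟩
  · by_contra hn
    refine hb' ?_
    show Φ f b' = 0
    exact (hφ b' f).trans (hf0 hn)
  · show Φ f b ≠ 0
    rw [show Φ f b = f (φ b) from hφ b f, hf1 rfl]
    exact one_ne_zero

namespace SMasa

variable (T : SMasa M Ω)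

/-- the map induced by a normalising partial isometry -/
theorem exists_toDom {V : M} {e e' : C(Ω, ℝ)} (he : e * e = e) (he' : e' * e' = e')
    (h1 : V * star V = T.emb e) (h2 : star V * V = T.emb e')
    (h3 : ∀ f, ∃ h, V * T.emb f * star V = T.emb h) :
    ∃ φ : C(Ω, Ω), (∀ f, V * T.emb f * star V = T.emb (e * f.comp φ)) ∧
      ∀ b, e b = 1 → e' (φ b) = 1 := by
  choose π hπ using h3
  have hVe : V * T.emb e' = V := by
    have h0 : star (V - V * T.emb e') * (V - V * T.emb e') = 0 := by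
      simp only [star_sub, star_mul, T.star_emb, sub_mul, mul_sub, mul_assoc]
      simp only [← mul_assoc (star V) V, h2, ← map_mul, he', sub_self]
    exact (sub_eq_zero.1 ((CStarRing.star_mul_self_eq_zero_iff _).1 h0)).symm
  have hadd : ∀ f g, π (f + g) = π f + π g := fun f g => T.emb_inj (by
    rw [map_add, ← hπ, ← hπ, ← hπ, map_add, mul_add, add_mul])
  have hsmul : ∀ (c : ℝ) f, π (c • f) = c • π f := fun c f => T.emb_inj (by
    rw [map_smul, ← hπ, ← hπ, map_smul, mul_smul_comm, smul_mul_assoc])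
  have hmul : ∀ f g, π (f * g) = π f * π g := fun f g => T.emb_inj (by
    rw [map_mul, ← hπ, ← hπ, ← hπ]
    calc V * T.emb (f * g) * star V = V * T.emb e' * T.emb (f * g) * star V := by rw [hVe]
      _ = V * T.emb (f * e' * g) * star V := by
          rw [mul_assoc V (T.emb e'), ← map_mul, show e' * (f * g) = f * e' * g by ring]
      _ = V * T.emb f * star V * (V * T.emb g * star V) := by
          rw [map_mul, map_mul, ← h2]; simp only [mul_assoc])
  have hone : π 1 = e := T.emb_inj (by rw [← hπ, map_one, mul_one, h1])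
  have hcut : ∀ f, e * π f = π f := fun f => by rw [← hone, ← hmul, one_mul]
  have hloc : π e' = e := T.emb_inj (by rw [← hπ, hVe, h1])
  let L : C(Ω, ℝ) →ₗ[ℝ] C(Ω, ℝ) :=
    { toFun := fun f => π f + (1 - e) * f
      map_add' := fun f g => by rw [hadd]; ring
      map_smul' := fun c f => by simp only [hsmul, RingHom.id_apply, mul_smul_comm, smul_add] }
  let Φ : C(Ω, ℝ) →ₐ[ℝ] C(Ω, ℝ) := AlgHom.ofLinearMap L (by
      show π 1 + (1 - e) * 1 = 1
      rw [hone]; ring) fun f g => by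
      show π (f * g) + (1 - e) * (f * g) = (π f + (1 - e) * f) * (π g + (1 - e) * g)
      rw [hmul]
      linear_combination -(f * g) * he + f * hcut g + g * hcut f
  obtain ⟨φ, hφ⟩ := exists_dual Φ
  have hkey : ∀ f, e * f.comp φ = π f := fun f => by
    have : Φ f = f.comp φ := ContinuousMap.ext (hφ f)
    rw [← this]
    show e * (π f + (1 - e) * f) = π f
    linear_combination hcut f - f * he
  refine ⟨φ, fun f => by rw [hkey, hπ], fun b hb => ?_⟩
  have := DFunLike.congr_fun ((hkey e').trans hloc) b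
  simpa [hb] using this

lemma map_left_inverse {V : M} {e e' : C(Ω, ℝ)} (he : e * e = e) (h1 : V * star V = T.emb e)
    {φ ψ : C(Ω, Ω)} (hφ : ∀ f, V * T.emb f * star V = T.emb (e * f.comp φ))
    (hψ : ∀ f, star V * T.emb f * V = T.emb (e' * f.comp ψ))
    (hφe : ∀ b, e b = 1 → e' (φ b) = 1) (b : Ω) (hb : e b = 1) : ψ (φ b) = b := by
  by_contra hne
  obtain ⟨f, hf0, hf1, -⟩ := exists_continuous_zero_one_of_isClosed
    (isClosed_singleton (x := ψ (φ b))) (isClosed_singleton (x := b))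
    (Set.disjoint_singleton.2 hne)
  have key : e * (e' * f.comp ψ).comp φ = e * f * e := T.emb_inj (by
    rw [← hφ, ← hψ, map_mul, map_mul, ← h1]
    simp only [mul_assoc])
  have := DFunLike.congr_fun key b
  simp only [ContinuousMap.mul_apply, ContinuousMap.comp_apply, hb, hφe b hb, hf0 rfl, hf1 rfl] at this
  simp at this

/-- a density: the maximiser of `ν f - τ (f f) / 2` on a box -/
theorem exists_density (ν : C(Ω, ℝ) →ₗ[ℝ] ℝ) (h0 : ∀ f, 0 ≤ f → 0 ≤ ν f)
    (hac : ∀ ε : ℝ, 0 < ε → ∃ d : ℝ, 0 < d ∧ ∀ f, 0 ≤ f → f ≤ 1 → T.tau f ≤ d → ν f ≤ ε)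
    {n : ℝ} (hn : 0 < n) :
    ∃ f : C(Ω, ℝ), (∀ ω, 0 ≤ f ω) ∧ (∀ ω, f ω ≤ n) ∧
      ∀ u : C(Ω, ℝ), (∀ ω, 0 ≤ f ω + u ω) → (∀ ω, f ω + u ω ≤ n) → ν u ≤ T.tau (f * u) := by
  let Box : Set C(Ω, ℝ) := {g | (∀ ω, 0 ≤ g ω) ∧ ∀ ω, g ω ≤ n}
  let Q : C(Ω, ℝ) → ℝ := fun g => ν g - T.tau (g * g) / 2
  have hne : (Q '' Box).Nonempty := ⟨Q 0, 0, ⟨fun _ => le_rfl, fun _ => hn.le⟩, rfl⟩
  have hνmono : ∀ f g : C(Ω, ℝ), f ≤ g → ν f ≤ ν g := fun f g h => by
    have := h0 _ (sub_nonneg.2 h)
    rw [map_sub] at this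
    linarith
  have hbdd : BddAbove (Q '' Box) := ⟨n * ν 1, by
    rintro _ ⟨g, hg, rfl⟩
    have h1 : ν g ≤ ν (n • 1) := hνmono _ _ fun ω => by simpa using hg.2 ω
    have h2 := T.tau_nonneg (f := g * g) fun ω => mul_self_nonneg _
    rw [map_smul, smul_eq_mul] at h1
    simp only [Q]
    linarith⟩
  set S := sSup (Q '' Box) with hS
  have hapx : ∀ k : ℕ, ∃ g ∈ Box, S - 1 / ((k : ℝ) + 1) < Q g := fun k => by
    obtain ⟨_, ⟨g, hg, rfl⟩, hlt⟩ := exists_lt_of_lt_csSup hne
      (show S - 1 / ((k : ℝ) + 1) < S by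
        have : (0 : ℝ) < 1 / ((k : ℝ) + 1) := by positivity
        linarith)
    exact ⟨g, hg, hlt⟩
  choose g hg hgl using hapx
  have hle : ∀ h ∈ Box, Q h ≤ S := fun h hh => le_csSup hbdd ⟨h, hh, rfl⟩
  have hcau : ∀ m k, T.tau ((g m - g k) * (g m - g k)) ≤ 4 * (1 / ((m : ℝ) + 1) + 1 / ((k : ℝ) + 1)) := by
    intro m k
    have hmid : (1 / 2 : ℝ) • (g m + g k) ∈ Box := by
      refine ⟨fun ω => ?_, fun ω => ?_⟩ <;>
        simp only [ContinuousMap.smul_apply, ContinuousMap.add_apply, smul_eq_mul] <;>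
        linarith [(hg m).1 ω, (hg k).1 ω, (hg m).2 ω, (hg k).2 ω]
    have h1 := hle _ hmid
    have e : (g m - g k) * (g m - g k) = (2 : ℝ) • (g m * g m + g k * g k)
        - (4 : ℝ) • (((1 / 2 : ℝ) • (g m + g k)) * ((1 / 2 : ℝ) • (g m + g k))) := by
      ext ω
      simp only [ContinuousMap.mul_apply, ContinuousMap.sub_apply, ContinuousMap.smul_apply,
        ContinuousMap.add_apply, smul_eq_mul]
      ring
    rw [e, map_sub, map_smul, map_smul, map_add, smul_eq_mul, smul_eq_mul]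
    have a := hgl m
    have b := hgl k
    simp only [Q, map_smul, map_add, smul_eq_mul] at h1 a b
    linarith
  obtain ⟨x, -, hx⟩ := T.exists_limit (fun k => T.emb (g k)) n (fun k => by
      rw [T.emb_norm, ContinuousMap.norm_le _ hn.le]
      intro ω
      rw [Real.norm_eq_abs, abs_of_nonneg ((hg k).1 ω)]
      exact (hg k).2 ω) (by
    intro ε hε
    obtain ⟨N, hN⟩ := exists_nat_one_div_lt (show (0 : ℝ) < ε ^ 2 / 8 by positivity)
    refine ⟨N, fun m hm => (pow_le_pow_iff_left₀ (T.n2_nonneg _) hε.le two_ne_zero).1 ?_⟩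
    rw [← map_sub, T.n2_emb_sq]
    have h1 : (1 : ℝ) / ((m : ℝ) + 1) ≤ 1 / ((N : ℝ) + 1) :=
      one_div_le_one_div_of_le (by positivity) (by exact_mod_cast Nat.succ_le_succ hm)
    linarith [hcau m N])
  have hnorm : ∀ k, ‖g k‖ ≤ n := fun k => (ContinuousMap.norm_le _ hn.le).2 fun ω => by
    rw [Real.norm_eq_abs, abs_of_nonneg ((hg k).1 ω)]; exact (hg k).2 ω
  obtain ⟨f, rfl⟩ := T.mem_range_of_tendsto hx (C := n) (.of_forall hnorm)
  have hlim0 : 0 ≤ f := by
    have := T.nonneg_of_tendsto2 hx (C := n)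
      (.of_forall fun k => by rw [T.emb_norm]; exact hnorm k)
      (.of_forall fun k => T.emb_nonneg fun ω => (hg k).1 ω)
    simpa [T.E_emb] using T.E_nonneg this
  have hlimn : f ≤ n • (1 : C(Ω, ℝ)) := by
    have := T.le_of_tendsto2 hx (w := fun _ : ℕ => T.emb (n • 1)) (T.tendsto2_const)
      (C := n) (.of_forall fun k => by rw [T.emb_norm]; exact hnorm k)
      (.of_forall fun k => by
        rw [T.emb_norm, ContinuousMap.norm_le _ hn.le]
        intro ω
        simp [abs_of_pos hn])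
      (.of_forall fun k => T.emb_mono fun ω => by simpa using (hg k).2 ω)
    have h' := T.E_mono this
    rwa [T.E_emb, T.E_emb] at h'
  have hf0 : ∀ ω, 0 ≤ f ω := fun ω => hlim0 ω
  have hfn : ∀ ω, f ω ≤ n := fun ω => by simpa using hlimn ω
  let D : ℕ → C(Ω, ℝ) := fun k => ⟨fun ω => |g k ω - f ω|, by fun_prop⟩
  have hD : ∀ k, T.tau (D k) ≤ T.n2 (T.emb (g k) - T.emb f) := fun k => by
    have h1 := (le_abs_self _).trans (T.abs_ip_le 1 (T.emb (D k)))
    have h2 : T.ip 1 (T.emb (D k)) = T.tau (D k) := by rw [ip, star_one, one_mul, tau_apply]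
    have h3 : T.n2 (T.emb (D k)) = T.n2 (T.emb (g k) - T.emb f) := by
      rw [← sq_eq_sq₀ (T.n2_nonneg _) (T.n2_nonneg _), ← map_sub, T.n2_emb_sq, T.n2_emb_sq]
      congr 1
      ext ω
      exact abs_mul_abs_self _
    rw [h2, h3, T.n2_one, one_mul] at h1
    exact h1
  have hQ : S ≤ Q f := by
    refine le_of_forall_pos_le_add fun ε hε => ?_
    obtain ⟨d, hd, hdν⟩ := hac (ε / (4 * n)) (by positivity)
    have hev : ∀ᶠ k in atTop, T.n2 (T.emb (g k) - T.emb f) ≤ min (d * n) (ε / (4 * n)) :=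
      hx.eventually (Iic_mem_nhds (by positivity))
    obtain ⟨N, hN⟩ := exists_nat_one_div_lt (show (0 : ℝ) < ε / 4 by positivity)
    obtain ⟨k, hk, hkN⟩ := (hev.and (eventually_ge_atTop N)).exists
    have h1 : (1 : ℝ) / ((k : ℝ) + 1) ≤ 1 / ((N : ℝ) + 1) :=
      one_div_le_one_div_of_le (by positivity) (by exact_mod_cast Nat.succ_le_succ hkN)
    have hDn : ν (n⁻¹ • D k) ≤ ε / (4 * n) := by
      refine hdν _ (fun ω => ?_) (fun ω => ?_) ?_
      · show 0 ≤ n⁻¹ * |g k ω - f ω|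
        positivity
      · show n⁻¹ * |g k ω - f ω| ≤ 1
        rw [inv_mul_le_iff₀ hn, mul_one, abs_le]
        constructor <;> linarith [(hg k).1 ω, (hg k).2 ω, hf0 ω, hfn ω]
      · rw [map_smul, smul_eq_mul, inv_mul_le_iff₀ hn, mul_comm n d]
        exact (hD k).trans (hk.trans (min_le_left _ _))
    rw [map_smul, smul_eq_mul, inv_mul_le_iff₀ hn] at hDn
    have hν : ν (g k) - ν f ≤ ν (D k) := by
      rw [← map_sub]; exact hνmono _ _ fun ω => le_abs_self _
    have hsq : T.tau (f * f) - T.tau (g k * g k) ≤ 2 * n * T.tau (D k) := by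
      rw [← map_sub, ← smul_eq_mul (2 * n) (T.tau (D k)), ← map_smul]
      refine T.tau_mono fun ω => ?_
      show f ω * f ω - g k ω * g k ω ≤ (2 * n) * |g k ω - f ω|
      nlinarith [neg_abs_le (g k ω - f ω), abs_nonneg (g k ω - f ω), hf0 ω, hfn ω, (hg k).1 ω,
        (hg k).2 ω]
    have h4 : n * T.tau (D k) ≤ ε / 4 := by
      have := (hD k).trans (hk.trans (min_le_right _ _))
      rw [le_div_iff₀ (by positivity)] at this
      linarith
    have h5 : n * (ε / (4 * n)) = ε / 4 := by field_simp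
    have := hgl k
    simp only [Q] at this ⊢
    nlinarith
  refine ⟨f, hf0, hfn, fun u hu0 hun => ?_⟩
  by_contra hlt
  rw [not_le] at hlt
  set B := T.tau (u * u) with hB
  have hB0 : 0 ≤ B := T.tau_nonneg fun ω => mul_self_nonneg _
  set c := ν u - T.tau (f * u) with hc
  have hc0 : 0 < c := by linarith
  set l := min 1 (c / (B + 1)) with hl
  have hl0 : 0 < l := lt_min one_pos (by positivity)
  have hl1 : l ≤ 1 := min_le_left _ _
  have hlB : l * (B + 1) ≤ c := by
    rw [← le_div_iff₀ (by positivity)]; exact min_le_right _ _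
  have hmem : f + l • u ∈ Box := by
    refine ⟨fun ω => ?_, fun ω => ?_⟩ <;>
      simp only [ContinuousMap.add_apply, ContinuousMap.smul_apply, smul_eq_mul] <;>
      nlinarith [hu0 ω, hun ω, hf0 ω, hfn ω]
  have h1 := (hle _ hmem).trans hQ
  have e : (f + l • u) * (f + l • u) = f * f + (2 * l) • (f * u) + (l * l) • (u * u) := by
    ext ω
    simp only [ContinuousMap.mul_apply, ContinuousMap.add_apply, ContinuousMap.smul_apply,
      smul_eq_mul]
    ring
  simp only [Q, map_add, map_smul, e, smul_eq_mul] at h1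
  nlinarith

lemma emb_le_emb {f g : C(Ω, ℝ)} (h : T.emb f ≤ T.emb g) : f ≤ g := by
  simpa [T.E_emb] using T.E_mono h

lemma tau_le_mul {g h : C(Ω, ℝ)} (hg : 0 ≤ g) : T.tau (h * g) ≤ ‖h‖ * T.tau g := by
  rw [← smul_eq_mul ‖h‖ (T.tau g), ← map_smul]
  exact T.tau_mono fun ω => mul_le_mul_of_nonneg_right
    ((le_abs_self _).trans (h.norm_coe_le_norm ω)) (hg ω)

/-- cutting down to where the density is bounded above and below -/
theorem exists_dens_cut {V : M} {e e' : C(Ω, ℝ)} (he : e * e = e) (he' : e' * e' = e')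
    (he1 : V * star V = T.emb e) {ψ : C(Ω, Ω)}
    (hψ : ∀ f, star V * T.emb f * V = T.emb (e' * f.comp ψ))
    (hψe : ∀ x, e' x = 1 → e (ψ x) = 1) {ε : ℝ} (hε0 : 0 < ε) :
    ∃ k dn : C(Ω, ℝ), k * k = k ∧ (∀ ω, 0 < dn ω) ∧
      (∀ h, T.tau (e' * (k * h).comp ψ) = T.tau (dn * (k * h))) ∧
      T.tau (e * (1 - k)) ≤ 2 * ε ∧ T.tau (e' * (1 - k.comp ψ)) ≤ 2 * ε := by
  -- the mass at the other end
  let ν : C(Ω, ℝ) →ₗ[ℝ] ℝ :=
    { toFun := fun h => T.tau (e' * h.comp ψ)
      map_add' := fun f g => by rw [ContinuousMap.add_comp, mul_add, map_add]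
      map_smul' := fun c f => by
        rw [ContinuousMap.smul_comp, mul_smul_comm, map_smul, RingHom.id_apply] }
  have hνV : ∀ h, ν h = T.tr (star V * T.emb h * V) := fun h => by
    rw [hψ]; rfl
  have hνe : ∀ h, ν (e * h) = ν h := fun h => by
    show T.tau (e' * (e * h).comp ψ) = T.tau (e' * h.comp ψ)
    congr 1
    ext x
    simp only [ContinuousMap.mul_apply, ContinuousMap.comp_apply]
    rcases idem_zero_or_one he' x with h' | h'
    · simp [h']
    · rw [hψe x h', one_mul]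
  have hν0 : ∀ f, 0 ≤ f → 0 ≤ ν f := fun f hf => T.tau_nonneg fun x => by
    show 0 ≤ e' x * f (ψ x)
    rcases idem_zero_or_one he' x with h' | h' <;> rw [h']
    · simp
    · rw [one_mul]; exact hf _
  have hν1 : ∀ f, f ≤ 1 → ν f ≤ 1 := fun f hf => by
    refine le_of_le_of_eq (T.tau_mono (g := 1) fun x => ?_) T.tau_one
    show e' x * f (ψ x) ≤ 1
    rcases idem_zero_or_one he' x with h' | h' <;> rw [h']
    · simp
    · rw [one_mul]; exact hf _
  have hac : ∀ ε : ℝ, 0 < ε → ∃ d : ℝ, 0 < d ∧ ∀ f, 0 ≤ f → f ≤ 1 → T.tau f ≤ d → ν f ≤ ε := by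
    intro ε hε
    obtain ⟨d, hd, hds⟩ := T.small V ε hε
    exact ⟨d, hd, fun f hf0 hf1 hfd => (hνV f).le.trans (hds _ (T.emb_nonneg hf0)
      (by simpa using T.emb_mono hf1) hfd)⟩
  obtain ⟨d₁, hd₁, hd₁s⟩ := T.small (star V) ε hε0
  obtain ⟨d₂, hd₂, hd₂s⟩ := hac ε hε0
  set δ := min (min (1 / 2) ε) d₁ with hδdef
  have hδ0 : 0 < δ := lt_min (lt_min (by norm_num) hε0) hd₁
  have hδh : δ ≤ 1 / 2 := (min_le_left _ _).trans (min_le_left _ _)
  have hδε : δ ≤ ε := (min_le_left _ _).trans (min_le_right _ _)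
  have hδd : δ ≤ d₁ := min_le_right _ _
  set n := 1 + 1 / ε + 1 / d₂ with hn
  have hn1 : 1 ≤ n := by
    have : 0 ≤ 1 / ε := by positivity
    have : 0 ≤ 1 / d₂ := by positivity
    linarith
  obtain ⟨f, hf0, hfn, hopt⟩ := T.exists_density ν hν0 hac (show 0 < n by linarith)
  set p₀ := T.pos (algebraMap ℝ C(Ω, ℝ) δ - f) with hp₀
  obtain ⟨nd, hnd⟩ : ∃ nd, nd = n - δ := ⟨_, rfl⟩
  set p₁ := T.pos (f - algebraMap ℝ C(Ω, ℝ) nd) with hp₁
  have hc₀ : ∀ ω, (p₀ ω = 1 ∧ f ω ≤ δ) ∨ (p₀ ω = 0 ∧ δ ≤ f ω) := fun ω => by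
    by_cases h : ω ∈ TMasa.hull (algebraMap ℝ C(Ω, ℝ) δ - f)
    · exact .inl ⟨by simp [hp₀, SMasa.pos_apply, h], by simpa using TMasa.nonneg_of_mem_hull h⟩
    · exact .inr ⟨by simp [hp₀, SMasa.pos_apply, h],
        by simpa using TMasa.nonpos_of_not_mem_hull h⟩
  have hc₁ : ∀ ω, (p₁ ω = 1 ∧ n - δ ≤ f ω) ∨ (p₁ ω = 0 ∧ f ω ≤ n - δ) := fun ω => by
    rw [← hnd]
    by_cases h : ω ∈ TMasa.hull (f - algebraMap ℝ C(Ω, ℝ) nd)
    · exact .inl ⟨by simp [hp₁, SMasa.pos_apply, h], by simpa using TMasa.nonneg_of_mem_hull h⟩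
    · exact .inr ⟨by simp [hp₁, SMasa.pos_apply, h],
        by simpa using TMasa.nonpos_of_not_mem_hull h⟩
  set k := (1 - p₀) * (1 - p₁) with hk
  have hk01 : ∀ ω, (k ω = 1 ∧ δ ≤ f ω ∧ f ω ≤ n - δ) ∨ (k ω = 0 ∧ 1 ≤ p₀ ω + p₁ ω) := fun ω => by
    rcases hc₀ ω with ⟨a0, b0⟩ | ⟨a0, b0⟩ <;> rcases hc₁ ω with ⟨a1, b1⟩ | ⟨a1, b1⟩
    all_goals simp [hk, a0, a1, b0, b1]
  have hkk : k * k = k := by
    ext ω; rcases hk01 ω with ⟨h, -⟩ | ⟨h, -⟩ <;> simp [h]
  -- the density is exact on `k`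
  have hexact : ∀ h, ν (k * h) = T.tau (f * (k * h)) := by
    intro h
    set t := δ / (‖h‖ + 1) with ht
    have ht0 : 0 < t := by positivity
    have hb : ∀ ω, |t * (k ω * h ω)| ≤ δ ∧ (k ω = 0 → t * (k ω * h ω) = 0) := fun ω => by
      refine ⟨?_, fun h0 => by simp [h0]⟩
      rcases hk01 ω with ⟨h1, -⟩ | ⟨h1, -⟩
      · rw [h1, one_mul, abs_mul, abs_of_pos ht0]
        have h5 : |h ω| ≤ ‖h‖ + 1 :=
          (h.norm_coe_le_norm ω).trans (by linarith)
        calc t * |h ω| ≤ t * (‖h‖ + 1) := mul_le_mul_of_nonneg_left h5 ht0.le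
          _ = δ := div_mul_cancel₀ _ (by positivity)
      · simp [h1, hδ0.le]
    have hbox : ∀ ω, 0 ≤ f ω + t * (k ω * h ω) ∧ f ω + t * (k ω * h ω) ≤ n ∧
        0 ≤ f ω + -(t * (k ω * h ω)) ∧ f ω + -(t * (k ω * h ω)) ≤ n := fun ω => by
      obtain ⟨h1, h2⟩ := hb ω
      rcases hk01 ω with ⟨-, h4, h5⟩ | ⟨h3, -⟩
      · rw [abs_le] at h1
        refine ⟨?_, ?_, ?_, ?_⟩ <;> linarith
      · rw [h2 h3]
        have := hf0 ω; have := hfn ω
        refine ⟨?_, ?_, ?_, ?_⟩ <;> linarith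
    have i1 := hopt (t • (k * h)) (fun ω => (hbox ω).1) (fun ω => (hbox ω).2.1)
    have i2 := hopt (-(t • (k * h))) (fun ω => (hbox ω).2.2.1) (fun ω => (hbox ω).2.2.2)
    simp only [mul_neg, mul_smul_comm, map_neg, map_smul, smul_eq_mul] at i1 i2
    exact mul_left_cancel₀ ht0.ne' (le_antisymm i1 (by linarith))
  -- the four masses
  have hep : ∀ {p : C(Ω, ℝ)}, p * p = p → 0 ≤ e * p ∧ e * p ≤ 1 := fun {p} hp => by
    have h1 : ∀ ω, e ω * p ω = 0 ∨ e ω * p ω = 1 := fun ω => by
      rcases idem_zero_or_one he ω with u | u <;> rcases idem_zero_or_one hp ω with w | w <;>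
        simp [u, w]
    refine ⟨fun ω => ?_, fun ω => ?_⟩
    · show 0 ≤ e ω * p ω
      rcases h1 ω with u | u <;> rw [u] <;> norm_num
    · show e ω * p ω ≤ 1
      rcases h1 ω with u | u <;> rw [u] <;> norm_num
  have hp₀p : p₀ * p₀ = p₀ := T.pos_mul_self _
  have hp₁p : p₁ * p₁ = p₁ := T.pos_mul_self _
  have hm₀ : ν (e * p₀) ≤ δ := by
    have i1 := hopt ((1 / 2 : ℝ) • (e * p₀))
      (fun ω => add_nonneg (hf0 ω) (mul_nonneg (by norm_num) ((hep hp₀p).1 ω)))
      (fun ω => by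
        show f ω + 1 / 2 * (e ω * p₀ ω) ≤ n
        have e1 : e ω * p₀ ω ≤ 1 := (hep hp₀p).2 ω
        have := hfn ω
        rcases hc₀ ω with ⟨-, h⟩ | ⟨h, -⟩
        · linarith
        · simp only [h, mul_zero]; linarith)
    have i2 : T.tau (f * (e * p₀)) ≤ δ := by
      calc T.tau (f * (e * p₀)) ≤ T.tau (δ • (1 : C(Ω, ℝ))) := T.tau_mono fun ω => by
            show f ω * (e ω * p₀ ω) ≤ δ * 1
            rw [mul_one]
            rcases hc₀ ω with ⟨h, h'⟩ | ⟨h, -⟩
            · rw [h, mul_one]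
              rcases idem_zero_or_one he ω with u | u <;> rw [u]
              · simpa using hδ0.le
              · simpa using h'
            · simpa [h] using hδ0.le
        _ = δ := by rw [map_smul, T.tau_one, smul_eq_mul, mul_one]
    rw [mul_smul_comm, map_smul, map_smul, smul_eq_mul, smul_eq_mul] at i1
    linarith
  have hτ₀ : T.tau (e * p₀) ≤ ε := by
    have hid : T.tau (e * p₀) = T.tr (star (star V) * T.emb (e' * (e * p₀).comp ψ) * star V) := by
      rw [star_star, ← hψ, SMasa.tau_apply]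
      congr 1
      calc T.emb (e * p₀) = T.emb e * T.emb (e * p₀) * T.emb e := by
            rw [← map_mul, ← map_mul]; congr 1; linear_combination -(p₀ + e * p₀) * he
        _ = _ := by rw [← he1]; simp only [mul_assoc]
    rw [hid]
    refine hd₁s _ (T.emb_nonneg fun x => ?_) ?_ (le_trans (le_of_eq ?_) (hm₀.trans hδd))
    · show 0 ≤ e' x * (e * p₀) (ψ x)
      rcases idem_zero_or_one he' x with u | u <;> rw [u]
      · simp
      · rw [one_mul]; exact (hep hp₀p).1 _
    · rw [← map_one T.emb]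
      refine T.emb_mono fun x => ?_
      show e' x * (e * p₀) (ψ x) ≤ 1
      rcases idem_zero_or_one he' x with u | u <;> rw [u]
      · simp
      · rw [one_mul]; exact (hep hp₀p).2 _
    · rfl
  have hm₁ : (n - δ) * T.tau (e * p₁) ≤ ν (e * p₁) := by
    have i1 := hopt (-((n - δ) • (e * p₁))) (fun ω => by
        show 0 ≤ f ω + -((n - δ) * (e ω * p₁ ω))
        have := hf0 ω
        rcases hc₁ ω with ⟨h, h'⟩ | ⟨h, -⟩
        · rw [h, mul_one]
          rcases idem_zero_or_one he ω with u | u <;> rw [u] <;> linarith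
        · simp only [h, mul_zero]; linarith)
      (fun ω => by
        show f ω + -((n - δ) * (e ω * p₁ ω)) ≤ n
        have := mul_nonneg (show 0 ≤ n - δ by linarith)
          (show 0 ≤ e ω * p₁ ω from (hep hp₁p).1 ω)
        linarith [hfn ω])
    have i2 : (n - δ) * T.tau (e * p₁) ≤ T.tau (f * (e * p₁)) := by
      rw [← smul_eq_mul (n - δ) (T.tau (e * p₁)), ← map_smul]
      refine T.tau_mono fun ω => ?_
      show (n - δ) * (e ω * p₁ ω) ≤ f ω * (e ω * p₁ ω)
      rcases hc₁ ω with ⟨-, h'⟩ | ⟨h, -⟩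
      · exact mul_le_mul_of_nonneg_right h' ((hep hp₁p).1 ω)
      · simp [h]
    simp only [mul_neg, mul_smul_comm, map_neg, map_smul, smul_eq_mul] at i1
    nlinarith
  have hτ₁ : T.tau (e * p₁) ≤ ε ∧ T.tau (e * p₁) ≤ d₂ := by
    have h1 := hm₁.trans (hν1 _ (hep hp₁p).2)
    have h0 : 0 ≤ T.tau (e * p₁) := T.tau_nonneg (hep hp₁p).1
    have h3 : 1 / ε ≤ n - δ := by
      have : 0 ≤ 1 / d₂ := by positivity
      linarith
    have h4 : 1 / d₂ ≤ n - δ := by
      have : 0 ≤ 1 / ε := by positivity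
      linarith
    rw [div_le_iff₀ hε0] at h3
    rw [div_le_iff₀ hd₂] at h4
    constructor <;> nlinarith
  have hν₁ : ν (e * p₁) ≤ ε := hd₂s _ (hep hp₁p).1 (hep hp₁p).2 hτ₁.2
  have h1k : e * (1 - k) ≤ e * p₀ + e * p₁ := fun ω => by
    show e ω * (1 - k ω) ≤ e ω * p₀ ω + e ω * p₁ ω
    rcases idem_zero_or_one he ω with u | u <;> rw [u]
    · simp
    rcases hk01 ω with ⟨h, -⟩ | ⟨h, h'⟩
    · rw [h]
      rcases hc₀ ω with ⟨a0, -⟩ | ⟨a0, -⟩ <;> rcases hc₁ ω with ⟨a1, -⟩ | ⟨a1, -⟩ <;>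
        rw [a0, a1] <;> norm_num
    · rw [h]; linarith
  let dn : C(Ω, ℝ) := k * f + (1 - k)
  have hdn : ∀ ω, 0 < dn ω := fun ω => by
    rcases hk01 ω with ⟨h, h', -⟩ | ⟨h, -⟩ <;> simp only [dn, ContinuousMap.add_apply,
      ContinuousMap.mul_apply, ContinuousMap.sub_apply, ContinuousMap.one_apply, h] <;> linarith
  refine ⟨k, dn, hkk, hdn, fun h => ?_, ?_, ?_⟩
  · show ν (k * h) = _
    rw [hexact]
    congr 1
    simp only [dn]
    linear_combination (h - f * h) * hkk
  · calc T.tau (e * (1 - k)) ≤ T.tau (e * p₀ + e * p₁) := T.tau_mono h1k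
      _ ≤ 2 * ε := by rw [map_add]; linarith [hτ₁.1]
  · calc T.tau (e' * (1 - k.comp ψ)) = ν (e * (1 - k)) := by rw [hνe]; rfl
      _ ≤ ν (e * p₀ + e * p₁) := by
          have := hν0 _ (sub_nonneg.2 h1k)
          rw [map_sub] at this
          linarith
      _ ≤ 2 * ε := by rw [map_add]; linarith

/-- the graph of a cut partial isometry -/
theorem exists_cut_gelt {V : M} {e e' : C(Ω, ℝ)} (he : e * e = e) (he' : e' * e' = e')
    (he1 : V * star V = T.emb e) {φ ψ : C(Ω, Ω)}
    (hφ : ∀ f, V * T.emb f * star V = T.emb (e * f.comp φ))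
    (hψ : ∀ f, star V * T.emb f * V = T.emb (e' * f.comp ψ))
    (hφe : ∀ x, e x = 1 → e' (φ x) = 1) (hψe : ∀ x, e' x = 1 → e (ψ x) = 1)
    (hψφ : ∀ x, e x = 1 → ψ (φ x) = x) (hφψ : ∀ x, e' x = 1 → φ (ψ x) = x)
    {k dn : C(Ω, ℝ)} (hkk : k * k = k) (hdn : ∀ ω, 0 < dn ω)
    (hexact : ∀ h, T.tau (e' * (k * h).comp ψ) = T.tau (dn * (k * h))) :
    ∃ g : GElt T, g.ran = e * k ∧ g.dom = e' * k.comp ψ ∧ g.toDom = φ ∧ g.toRan = ψ := by
  have hνe : ∀ h : C(Ω, ℝ), e' * (e * h).comp ψ = e' * h.comp ψ := fun h => by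
    ext x
    simp only [ContinuousMap.mul_apply, ContinuousMap.comp_apply]
    rcases idem_zero_or_one he' x with h' | h'
    · simp [h']
    · rw [hψe x h', one_mul]
  let dn' : C(Ω, ℝ) := ⟨fun x => (dn (ψ x))⁻¹,
    (dn.continuous.comp ψ.continuous).inv₀ fun x => (hdn _).ne'⟩
  have hkran : ∀ x, (e * k) x = 1 → e x = 1 ∧ k x = 1 := fun x hx => by
    simp only [ContinuousMap.mul_apply] at hx
    rcases idem_zero_or_one he x with u | u <;> rcases idem_zero_or_one hkk x with w | w <;>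
      simp_all
  have hkdom : ∀ x, (e' * k.comp ψ) x = 1 → e' x = 1 ∧ k (ψ x) = 1 := fun x hx => by
    simp only [ContinuousMap.mul_apply, ContinuousMap.comp_apply] at hx
    rcases idem_zero_or_one he' x with u | u <;> rcases idem_zero_or_one hkk (ψ x) with w | w <;>
      simp_all
  let g : GElt T :=
    { W := T.emb k * V
      dom := e' * k.comp ψ
      ran := e * k
      dom_idem := by rw [mul_mul_mul_comm, he', ← ContinuousMap.mul_comp, hkk]
      ran_idem := by rw [mul_mul_mul_comm, he, hkk]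
      toDom := φ
      toRan := ψ
      star_W_mul := by
        rw [star_mul, T.star_emb, mul_assoc, ← mul_assoc (T.emb k), ← map_mul, hkk, ← mul_assoc,
          hψ]
      W_mul_star := by
        rw [star_mul, T.star_emb, mul_assoc, ← mul_assoc V, he1, ← map_mul, ← map_mul]
        congr 1; linear_combination e * hkk
      conj := fun F => by
        rw [star_mul, T.star_emb, show T.emb k * V * T.emb F * (star V * T.emb k)
          = T.emb k * (V * T.emb F * star V) * T.emb k by simp only [mul_assoc], hφ, ← map_mul,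
          ← map_mul]
        congr 1; linear_combination (e * F.comp φ) * hkk
      conj' := fun F => by
        rw [star_mul, T.star_emb, show star V * T.emb k * T.emb F * (T.emb k * V)
          = star V * (T.emb k * T.emb F * T.emb k) * V by simp only [mul_assoc], ← map_mul,
          ← map_mul, hψ, ContinuousMap.mul_comp, ContinuousMap.mul_comp]
        congr 1
        have hkψ : k.comp ψ * k.comp ψ = k.comp ψ := by rw [← ContinuousMap.mul_comp, hkk]
        linear_combination (e' * F.comp ψ) * hkψ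
      dom_toDom := fun x hx => by
        obtain ⟨u, w⟩ := hkran x hx
        simp [hφe x u, hψφ x u, w]
      ran_toRan := fun x hx => by
        obtain ⟨u, w⟩ := hkdom x hx
        simp [hψe x u, w]
      toRan_toDom := fun x hx => hψφ x (hkran x hx).1
      toDom_toRan := fun x hx => hφψ x (hkdom x hx).1
      dens := dn
      dens' := dn'
      dens_pos := hdn
      dens'_pos := fun x => inv_pos.2 (hdn _)
      dens_inv := fun x hx => by
        show dn x * (dn (ψ (φ x)))⁻¹ = 1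
        rw [hψφ x (hkran x hx).1, mul_inv_cancel₀ (hdn x).ne']
      tau_dens := fun F => by
        have h1 : e * k * F.comp φ * dn = dn * (k * (e * F.comp φ)) := by
          ext x
          simp only [ContinuousMap.mul_apply, ContinuousMap.comp_apply]
          ring
        rw [h1, ← hexact]
        show T.tau (e' * (k * (e * F.comp φ)).comp ψ) = _
        congr 1
        ext x
        simp only [ContinuousMap.mul_apply, ContinuousMap.comp_apply]
        rcases idem_zero_or_one he' x with u | u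
        · simp [u]
        · rw [hψe x u, hφψ x u]; ring
      tau_dens' := fun F => by
        let F' : C(Ω, ℝ) := ⟨fun x => F x / dn x, F.continuous.div dn.continuous fun x => (hdn x).ne'⟩
        have h1 : e' * k.comp ψ * F.comp ψ * dn' = e' * (k * F').comp ψ := by
          ext x
          simp only [ContinuousMap.mul_apply, ContinuousMap.comp_apply, F', dn',
            ContinuousMap.coe_mk, div_eq_mul_inv]
          ring
        rw [h1]
        rw [← hνe, show e * (k * F') = k * (e * F') by ring, hexact]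
        congr 1
        ext x
        simp only [ContinuousMap.mul_apply, F', ContinuousMap.coe_mk]
        have := (hdn x).ne'
        field_simp }
  exact ⟨g, rfl, rfl, rfl, rfl⟩

end SMasa

/-- a normaliser dominates a graph up to small mass, in both directions -/
theorem exists_gelt (T : SMasa M Ω) (W : M) (a a' : C(Ω, ℝ)) (ha' : star W * W = T.emb a')
    (ha : W * star W = T.emb a) (hW : ∀ f, ∃ h, W * T.emb f * star W = T.emb h)
    (hW' : ∀ f, ∃ h, star W * T.emb f * W = T.emb h) {η : ℝ} (hη : 0 < η) :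
    ∃ (g : GElt T) (c : C(Ω, ℝ)), 0 ≤ c ∧
      (∀ f, 0 ≤ f → T.emb (c * g.ran * f.comp g.toDom) ≤ W * T.emb f * star W) ∧
      (∀ f, 0 ≤ f → T.emb ((c * f).comp g.toRan * g.dom) ≤ star W * T.emb f * W) ∧
      T.tau (a - c * g.ran) ≤ η ∧ T.tau (a' - c.comp g.toRan * g.dom) ≤ η := by
  have ha'0 : (0 : C(Ω, ℝ)) ≤ a' := by
    have h := star_mul_self_nonneg W
    rw [ha', ← map_zero T.emb] at h
    exact T.emb_le_emb h
  set θ := η / 3 with hθ
  have hθ0 : 0 < θ := by positivity
  -- the support of `a' ≥ θ`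
  set e' := T.pos (a' - algebraMap ℝ C(Ω, ℝ) θ) with he'def
  have he' : e' * e' = e' := T.pos_mul_self _
  have hee' : ∀ ω, (e' ω = 1 ∧ θ ≤ a' ω) ∨ (e' ω = 0 ∧ a' ω ≤ θ) := fun ω => by
    by_cases h : ω ∈ TMasa.hull (a' - algebraMap ℝ C(Ω, ℝ) θ)
    · exact .inl ⟨by simp [he'def, SMasa.pos_apply, h], by simpa using TMasa.nonneg_of_mem_hull h⟩
    · exact .inr ⟨by simp [he'def, SMasa.pos_apply, h],
        by simpa using TMasa.nonpos_of_not_mem_hull h⟩
  let b : C(Ω, ℝ) := ⟨fun ω => e' ω / Real.sqrt (max (a' ω) θ), e'.continuous.div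
    (by fun_prop) fun ω => (Real.sqrt_pos.2 (lt_max_of_lt_right hθ0)).ne'⟩
  have hb : b * b * a' = e' := by
    ext ω
    simp only [b, ContinuousMap.mul_apply, ContinuousMap.coe_mk]
    rcases hee' ω with ⟨h1, h2⟩ | ⟨h1, -⟩
    · have : 0 < a' ω := lt_of_lt_of_le hθ0 h2
      rw [h1, max_eq_left h2, div_mul_div_comm, Real.mul_self_sqrt this.le]
      field_simp
    · simp [h1]
  set V := W * T.emb b with hV
  have hVs : star V = T.emb b * star W := by rw [hV, star_mul, T.star_emb]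
  have h2 : star V * V = T.emb e' := by
    rw [hVs, hV, mul_assoc, ← mul_assoc (star W), ha', ← map_mul, ← map_mul, ← hb]
    congr 1; ring
  obtain ⟨e, he1⟩ : ∃ e, V * star V = T.emb e := by
    obtain ⟨h, hh⟩ := hW (b * b)
    exact ⟨h, by rw [hVs, hV, ← hh, map_mul]; simp only [mul_assoc]⟩
  have hVe : V * T.emb e' = V := by
    have h0 : star (V - V * T.emb e') * (V - V * T.emb e') = 0 := by
      simp only [star_sub, star_mul, T.star_emb, sub_mul, mul_sub, mul_assoc]
      simp only [← mul_assoc (star V) V, h2, ← map_mul, he', sub_self]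
    exact (sub_eq_zero.1 ((CStarRing.star_mul_self_eq_zero_iff _).1 h0)).symm
  have he : e * e = e := T.emb_inj (by
    rw [map_mul, ← he1, mul_assoc, ← mul_assoc (star V), h2, ← mul_assoc, hVe])
  obtain ⟨φ, hφ, hφe⟩ := T.exists_toDom he he' he1 h2 fun f => by
    obtain ⟨h, hh⟩ := hW (b * f * b)
    exact ⟨h, by rw [hVs, hV, ← hh, map_mul, map_mul]; simp only [mul_assoc]⟩
  have hψ' : ∃ ψ : C(Ω, Ω), (∀ f, star V * T.emb f * star (star V) = T.emb (e' * f.comp ψ)) ∧
      ∀ x, e' x = 1 → e (ψ x) = 1 :=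
    T.exists_toDom he' he (by rw [star_star]; exact h2) (by rw [star_star]; exact he1) fun f => by
      obtain ⟨h, hh⟩ := hW' f
      refine ⟨b * h * b, ?_⟩
      rw [star_star, hVs, hV, map_mul, map_mul, ← hh]
      simp only [mul_assoc]
  obtain ⟨ψ, hψ, hψe⟩ := hψ'
  simp only [star_star] at hψ
  have hψφ : ∀ x, e x = 1 → ψ (φ x) = x := T.map_left_inverse he he1 hφ hψ hφe
  have hφψ : ∀ x, e' x = 1 → φ (ψ x) = x :=
    T.map_left_inverse (V := star V) (e := e') (e' := e) he' (by rw [star_star]; exact h2)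
      (fun f => by rw [star_star]; exact hψ f) (fun f => by rw [star_star]; exact hφ f) hψe
  set ε := η / (6 * (‖a'‖ + 1)) with hε
  have hA1 : 0 < ‖a'‖ + 1 := by positivity
  have hε0 : 0 < ε := by positivity
  have hAε : ‖a'‖ * (2 * ε) ≤ θ := by
    rw [hε, hθ]
    calc ‖a'‖ * (2 * (η / (6 * (‖a'‖ + 1)))) = ‖a'‖ / (‖a'‖ + 1) * (η / 3) := by
          field_simp; ring
      _ ≤ 1 * (η / 3) := mul_le_mul_of_nonneg_right
          ((div_le_one hA1).2 (by linarith)) (by positivity)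
      _ = η / 3 := one_mul _
  obtain ⟨k, dn, hkk, hdn, hexact, hm1, hm2⟩ := T.exists_dens_cut he he' he1 hψ hψe hε0
  obtain ⟨g, hgr, hgd, hgD, hgR⟩ :=
    T.exists_cut_gelt he he' he1 hφ hψ hφe hψe hψφ hφψ hkk hdn hexact
  refine ⟨g, a'.comp φ, fun x => ha'0 (φ x), fun F hF => ?_, fun F hF => ?_, ?_, ?_⟩
  · rw [hgr, hgD]
    have hmain : T.emb (e * (a' * F).comp φ) = W * T.emb (e' * F) * star W := by
      rw [← hφ, hVs, hV, show T.emb (e' * F) = T.emb b * T.emb (a' * F) * T.emb b by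
        rw [← map_mul, ← map_mul, ← hb]; congr 1; ring]
      simp only [mul_assoc]
    calc T.emb (a'.comp φ * (e * k) * F.comp φ) ≤ T.emb (e * (a' * F).comp φ) := by
          refine T.emb_mono fun x => ?_
          have h1 : 0 ≤ a' (φ x) := ha'0 _
          have h2 : 0 ≤ F (φ x) := hF _
          show a' (φ x) * (e x * k x) * F (φ x) ≤ e x * (a' (φ x) * F (φ x))
          rcases idem_zero_or_one he x with u | u <;> rcases idem_zero_or_one hkk x with w | w <;>
            rw [u, w] <;> nlinarith [mul_nonneg h1 h2]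
      _ = W * T.emb (e' * F) * star W := hmain
      _ ≤ W * T.emb F * star W := star_right_conjugate_le_conjugate (T.emb_mono fun x => by
          have h2 : 0 ≤ F x := hF x
          show e' x * F x ≤ F x
          rcases idem_zero_or_one he' x with u | u <;> rw [u] <;> linarith) W
  · rw [hgd, hgR]
    obtain ⟨h, hh⟩ := hW' (k * F)
    have hkF : 0 ≤ k * F ∧ k * F ≤ F := by
      refine ⟨fun x => ?_, fun x => ?_⟩ <;> have h2 : 0 ≤ F x := hF x
      · show 0 ≤ k x * F x
        rcases idem_zero_or_one hkk x with w | w <;> rw [w] <;> linarith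
      · show k x * F x ≤ F x
        rcases idem_zero_or_one hkk x with w | w <;> rw [w] <;> linarith
    have h0 : (0 : C(Ω, ℝ)) ≤ h := T.emb_le_emb (by
      rw [map_zero, ← hh]; exact star_left_conjugate_nonneg (T.emb_nonneg hkF.1) W)
    have hbh : e' * (k * F).comp ψ = b * h * b := T.emb_inj (by
      rw [← hψ, map_mul, map_mul, map_mul, ← hh, hVs, hV, map_mul]; simp only [mul_assoc])
    calc T.emb ((a'.comp φ * F).comp ψ * (e' * k.comp ψ)) ≤ T.emb h := by
          refine T.emb_mono fun x => ?_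
          have e1 := DFunLike.congr_fun hbh x
          have e2 := DFunLike.congr_fun hb x
          have h0x : 0 ≤ h x := h0 x
          simp only [ContinuousMap.mul_apply, ContinuousMap.comp_apply] at e1 e2
          show a' (φ (ψ x)) * F (ψ x) * (e' x * k (ψ x)) ≤ h x
          rcases idem_zero_or_one he' x with u | u
          · simp [u, h0x]
          · rw [u, one_mul] at e1
            rw [hφψ x u, u, one_mul, show a' x * F (ψ x) * k (ψ x) = a' x * (k (ψ x) * F (ψ x)) by
              ring, e1, show a' x * (b x * h x * b x) = b x * b x * a' x * h x by ring, e2, u,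
              one_mul]
      _ ≤ star W * T.emb F * W := by
          rw [← hh]; exact star_left_conjugate_le_conjugate (T.emb_mono hkF.2) W
  · rw [hgr]
    set r := e * a'.comp φ with hr
    have hre : T.emb r = W * T.emb e' * star W := by
      rw [hr, ← hφ, hVs, hV, show T.emb e' = T.emb b * T.emb a' * T.emb b by
        rw [← map_mul, ← map_mul, ← hb]; congr 1; ring]
      simp only [mul_assoc]
    have hh : T.emb (a - r) = W * T.emb (1 - e') * star W := by
      rw [map_sub, hre, ← ha, map_sub, map_one, mul_sub, sub_mul, mul_one]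
    have h1e : (0 : C(Ω, ℝ)) ≤ 1 - e' := fun x => by
      show 0 ≤ 1 - e' x
      rcases idem_zero_or_one he' x with u | u <;> rw [u] <;> norm_num
    have h0 : (0 : C(Ω, ℝ)) ≤ a - r := T.emb_le_emb (by
      rw [map_zero, hh]; exact star_right_conjugate_nonneg (T.emb_nonneg h1e) W)
    have hsq : (a - r) * (a - r) ≤ θ • (a - r) := T.emb_le_emb (by
      rw [map_mul, map_smul, hh, show W * T.emb (1 - e') * star W * (W * T.emb (1 - e') * star W)
        = W * (T.emb (1 - e') * (star W * W) * T.emb (1 - e')) * star W by simp only [mul_assoc],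
        ha', ← map_mul, ← map_mul, ← smul_mul_assoc, ← mul_smul_comm, ← map_smul]
      refine star_right_conjugate_le_conjugate (T.emb_mono fun x => ?_) W
      show (1 - e' x) * a' x * (1 - e' x) ≤ θ * (1 - e' x)
      rcases hee' x with ⟨u, -⟩ | ⟨u, w⟩ <;> rw [u] <;> linarith)
    have hle : T.tau (a - r) ≤ θ := by
      calc T.tau (a - r) ≤ T.tau (θ • (1 : C(Ω, ℝ))) := T.tau_mono fun x => by
            have u : 0 ≤ (a - r) x := h0 x
            have w : (a - r) x * (a - r) x ≤ θ * (a - r) x := hsq x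
            show (a - r) x ≤ θ * 1
            nlinarith
        _ = θ := by rw [map_smul, T.tau_one, smul_eq_mul, mul_one]
    have h2 : a - a'.comp φ * (e * k) = (a - r) + a'.comp φ * (e * (1 - k)) := by rw [hr]; ring
    have h3 : T.tau (a'.comp φ * (e * (1 - k))) ≤ ‖a'‖ * T.tau (e * (1 - k)) := by
      rw [← smul_eq_mul ‖a'‖ _, ← map_smul]
      refine T.tau_mono fun x => mul_le_mul_of_nonneg_right
        ((le_abs_self _).trans (a'.norm_coe_le_norm (φ x))) ?_
      show 0 ≤ e x * (1 - k x)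
      rcases idem_zero_or_one he x with u | u <;> rcases idem_zero_or_one hkk x with w | w <;>
        rw [u, w] <;> norm_num
    rw [h2, map_add]
    linarith [mul_le_mul_of_nonneg_left hm1 (norm_nonneg a')]
  · rw [hgd, hgR]
    have h2 : a' - (a'.comp φ).comp ψ * (e' * k.comp ψ)
        = a' * (1 - e') + a' * (e' * (1 - k.comp ψ)) := by
      ext x
      simp only [ContinuousMap.mul_apply, ContinuousMap.sub_apply, ContinuousMap.comp_apply,
        ContinuousMap.add_apply, ContinuousMap.one_apply]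
      rcases idem_zero_or_one he' x with u | u
      · rw [u]; ring
      · rw [hφψ x u]; ring
    have h3 : T.tau (a' * (1 - e')) ≤ θ := by
      calc T.tau (a' * (1 - e')) ≤ T.tau (θ • (1 : C(Ω, ℝ))) := T.tau_mono fun x => by
            show a' x * (1 - e' x) ≤ θ * 1
            rcases hee' x with ⟨u, -⟩ | ⟨u, w⟩ <;> rw [u] <;> linarith
        _ = θ := by rw [map_smul, T.tau_one, smul_eq_mul, mul_one]
    have h4 : T.tau (a' * (e' * (1 - k.comp ψ))) ≤ ‖a'‖ * T.tau (e' * (1 - k.comp ψ)) := by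
      refine T.tau_le_mul fun x => ?_
      show 0 ≤ e' x * (1 - k (ψ x))
      rcases idem_zero_or_one he' x with u | u <;> rcases idem_zero_or_one hkk (ψ x) with w | w <;>
        rw [u, w] <;> norm_num
    rw [h2, map_add]
    linarith [mul_le_mul_of_nonneg_left hm2 (norm_nonneg a')]

end Vale.Agent.P078.T3
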