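import Mathlib
import Vale.Agent.P078.Type3.Forms.Ker
import Vale.Agent.P078.Type3.Step.Formal

/-! Kernel algebra of graph operators: the action as a finite kernel sum, the Schur test, and the
bounded operator on square summable functions with the same matrix, with its polynomial calculus. -/

noncomputable section

open scoped ComplexOrder InnerProductSpace
open Classical

set_option linter.unusedSectionVars false

namespace Vale.Agent.P078.T3

universe u v

variable {M : Type u} [CStarAlgebra M] [PartialOrder M] [StarOrderedRing M]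
  {Ω : Type v} [TopologicalSpace Ω] [CompactSpace Ω] [T2Space Ω]

/-- Schur test: absolute row sums at most `a` and absolute column sums at most `c`. -/
lemma opBd_schur {X Y : Type*} {k : X → Y → ℝ} {a c : ℝ} (ha : 0 ≤ a)
    (hr : ∀ x (t : Finset Y), ∑ y ∈ t, |k x y| ≤ a)
    (hc : ∀ y (s : Finset X), ∑ x ∈ s, |k x y| ≤ c) : OpBd k (Real.sqrt (a * c)) := by
  intro s t f g
  set F := fun p : X × Y => |f p.1| * Real.sqrt |k p.1 p.2|
  set G := fun p : X × Y => |g p.2| * Real.sqrt |k p.1 p.2|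
  have h1 : |∑ x ∈ s, ∑ y ∈ t, f x * k x y * g y| ≤ ∑ p ∈ s ×ˢ t, F p * G p := by
    rw [← Finset.sum_product']
    refine (Finset.abs_sum_le_sum_abs _ _).trans (Finset.sum_le_sum fun p _ => le_of_eq ?_)
    simp only [F, G, abs_mul]
    linear_combination (- |f p.1| * |g p.2|) * Real.mul_self_sqrt (abs_nonneg (k p.1 p.2))
  have hF : ∑ p ∈ s ×ˢ t, F p ^ 2 ≤ a * ∑ x ∈ s, f x ^ 2 := by
    rw [Finset.sum_product, Finset.mul_sum]
    refine Finset.sum_le_sum fun x _ => ?_
    simp only [F, mul_pow, sq_abs, Real.sq_sqrt (abs_nonneg _), ← Finset.mul_sum]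
    rw [mul_comm a]
    exact mul_le_mul_of_nonneg_left (hr x t) (sq_nonneg _)
  have hG : ∑ p ∈ s ×ˢ t, G p ^ 2 ≤ c * ∑ y ∈ t, g y ^ 2 := by
    rw [Finset.sum_product_right, Finset.mul_sum]
    refine Finset.sum_le_sum fun y _ => ?_
    simp only [G, mul_pow, sq_abs, Real.sq_sqrt (abs_nonneg _), ← Finset.mul_sum]
    rw [mul_comm c]
    exact mul_le_mul_of_nonneg_left (hc y s) (sq_nonneg _)
  refine h1.trans ((Real.sum_mul_le_sqrt_mul_sqrt _ F G).trans ?_)
  refine (mul_le_mul (Real.sqrt_le_sqrt hF) (Real.sqrt_le_sqrt hG) (Real.sqrt_nonneg _)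
    (Real.sqrt_nonneg _)).trans (le_of_eq ?_)
  rw [Real.sqrt_mul ha (∑ x ∈ s, f x ^ 2),
    Real.sqrt_mul' c (Finset.sum_nonneg fun y _ => sq_nonneg (g y)), Real.sqrt_mul ha c]
  ring

/-- polynomial calculus on an abstract Hilbert space -/
lemma norm_aeval_le {H : Type*} [NormedAddCommGroup H] [InnerProductSpace ℂ H] [CompleteSpace H]
    (A : H →L[ℂ] H) {c : ℝ} (hc : 0 ≤ c) (h0 : 0 ≤ A) (h1 : A ≤ 1) (p : Polynomial ℝ)
    (hp : ∀ s ∈ Set.Icc (0 : ℝ) 1, |p.eval s| ≤ c) : ‖Polynomial.aeval A p‖ ≤ c := by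
  rw [← cfc_polynomial p A (IsSelfAdjoint.of_nonneg h0)]
  refine norm_cfc_le hc fun s hs => ?_
  rw [Real.norm_eq_abs]
  exact hp s ⟨spectrum_nonneg_of_nonneg h0 hs, (CFC.le_one_iff (R := ℝ) A).1 h1 s hs⟩

namespace GOp

open FormKer

variable {T : SMasa M Ω} {ι κ lab : Type}

lemma ker_add (S R : GOp T ι κ) (x : Ω × ι) (y : Ω × κ) :
    (S.add R).ker x y = S.ker x y + R.ker x y := ker_append S R x y

lemma ker_diag [Fintype ι] (f : ι → C(Ω, ℝ)) (x y : Ω × ι) :
    (diag (T := T) f).ker x y = if x = y then f x.2 x.1 else 0 := by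
  obtain ⟨b, i⟩ := x
  obtain ⟨a, j⟩ := y
  simp only [ker, diag, List.map_map, Function.comp_def, GElt.one, Finset.sum_map_toList,
    ContinuousMap.one_apply, mul_one, ContinuousMap.id_apply, Prod.mk.injEq]
  rw [Finset.sum_eq_single i (fun k _ hk => if_neg fun h => hk h.1)
    (fun h => absurd (Finset.mem_univ i) h)]
  by_cases h1 : i = j <;> by_cases h2 : b = a <;> simp [h1, h2]

lemma ker_eq_zero {S : GOp T ι κ} {x : Ω × ι} {y : Ω × κ} (h : y.1 ∉ reach S x.1) :
    S.ker x y = 0 := by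
  refine List.sum_eq_zero fun z hz => ?_
  obtain ⟨t, ht, rfl⟩ := List.mem_map.1 hz
  exact if_neg fun e => h (by rw [← e.2.2]; exact mem_reach ht x.1)

lemma app_eq_sum [Fintype κ] (S : GOp T ι κ) (u : κ → C(Ω, ℝ)) (i : ι) (b : Ω) {s : Finset Ω}
    (hs : reach S b ⊆ s) :
    S.app u i b = ∑ y ∈ s ×ˢ (Finset.univ : Finset κ), S.ker (b, i) y * u y.2 y.1 := by
  rw [app_apply]
  simp only [ker, ← List.sum_map_mul_right, frm_finset_list_sum_comm]
  congr 1
  refine List.map_congr_left fun t ht => ?_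
  rw [Finset.sum_eq_single (t.g.toDom b, t.col)]
  · by_cases h : t.row = i <;> simp [h]
  · intro y _ hy
    rw [if_neg fun e => hy (Prod.ext e.2.2.symm e.2.1.symm), zero_mul]
  · intro h
    exact absurd (Finset.mem_product.2 ⟨hs (mem_reach ht b), Finset.mem_univ _⟩) h

lemma app_congr [Fintype κ] {S S' : GOp T ι κ} (h : ∀ x y, S.ker x y = S'.ker x y)
    (u : κ → C(Ω, ℝ)) : S.app u = S'.app u := by
  funext i
  ext b
  rw [app_eq_sum S u i b (Finset.subset_union_left (s₂ := reach S' b)),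
    app_eq_sum S' u i b (Finset.subset_union_right (s₁ := reach S b))]
  simp only [h]

/-- the action of a product -/
lemma app_mul [Fintype κ] [Fintype lab] (S : GOp T ι κ) (R : GOp T κ lab) (u : lab → C(Ω, ℝ)) :
    (S.mul R).app u = S.app (R.app u) := by
  funext i
  ext b
  set U := reach (S.mul R) b ∪ (reach S b).biUnion fun a => reach R a with hU
  have hU1 : ∀ a ∈ reach S b, reach R a ⊆ U := fun a ha =>
    (Finset.subset_biUnion_of_mem (fun a => reach R a) ha).trans Finset.subset_union_right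
  rw [app_eq_sum S _ i b (Finset.Subset.refl _), app_eq_sum (S.mul R) u i b
    (Finset.subset_union_left : _ ⊆ U)]
  calc ∑ z ∈ U ×ˢ (Finset.univ : Finset lab), (S.mul R).ker (b, i) z * u z.2 z.1
      = ∑ z ∈ U ×ˢ (Finset.univ : Finset lab), ∑ y ∈ reach S b ×ˢ (Finset.univ : Finset κ),
          S.ker (b, i) y * (R.ker y z * u z.2 z.1) := Finset.sum_congr rfl fun z _ => by
        rw [ker_mul S R (b, i) z (Finset.Subset.refl _), Finset.sum_mul]
        exact Finset.sum_congr rfl fun y _ => mul_assoc _ _ _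
    _ = ∑ y ∈ reach S b ×ˢ (Finset.univ : Finset κ), ∑ z ∈ U ×ˢ (Finset.univ : Finset lab),
          S.ker (b, i) y * (R.ker y z * u z.2 z.1) := Finset.sum_comm
    _ = _ := Finset.sum_congr rfl fun y hy => by
        rw [← Finset.mul_sum, app_eq_sum R u y.2 y.1 (hU1 y.1 (Finset.mem_product.1 hy).1)]

/-- absolute row sums of the kernel -/
lemma sum_abs_ker_le (S : GOp T ι κ) (x : Ω × ι) (t : Finset (Ω × κ)) :
    ∑ y ∈ t, |S.ker x y| ≤ S.rowMass x.2 x.1 := by
  induction S with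
  | nil => simp [ker, rowMass]
  | cons a S ih =>
    simp only [ker, rowMass, List.map_cons, List.sum_cons] at ih ⊢
    refine (Finset.sum_le_sum fun y _ => abs_add_le _ _).trans ?_
    rw [Finset.sum_add_distrib]
    refine add_le_add ?_ ih
    by_cases h : a.row = x.2
    · rw [if_pos h]
      by_cases hm : (a.g.toDom x.1, a.col) ∈ t
      · rw [Finset.sum_eq_single (a.g.toDom x.1, a.col) (fun y _ hy => by
          rw [if_neg fun e => hy (Prod.ext e.2.2.symm e.2.1.symm), abs_zero])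
          (fun hn => absurd hm hn), if_pos ⟨h, rfl, rfl⟩]
      · rw [Finset.sum_eq_zero fun y hy => by
          rw [if_neg fun e => hm (by
            rwa [show (a.g.toDom x.1, a.col) = y from Prod.ext e.2.2 e.2.1]), abs_zero]]
        positivity
    · rw [if_neg h, Finset.sum_eq_zero fun y _ => by rw [if_neg fun e => h e.1, abs_zero]]

lemma opBd_of_fbd {S : GOp T ι κ} {a c : ℝ} (ha : 0 ≤ a) (hS : S.FBd a) (hS' : S.tp.FBd c) :
    OpBd S.ker (Real.sqrt (a * c)) :=
  opBd_schur ha (fun x t => (sum_abs_ker_le S x t).trans (hS x.2 x.1)) fun y s => by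
    simp only [← ker_tp S _ y]
    exact (sum_abs_ker_le S.tp y s).trans (hS' y.2 y.1)

/-- a formal bound which always holds -/
def mass (S : GOp T ι κ) : ℝ := (S.map fun t => ‖t.coef‖).sum

lemma mass_nonneg (S : GOp T ι κ) : 0 ≤ S.mass :=
  List.sum_nonneg fun z hz => by
    obtain ⟨t, -, rfl⟩ := List.mem_map.1 hz
    exact norm_nonneg _

lemma fbd_mass (S : GOp T ι κ) : S.FBd S.mass := by
  intro i b
  refine List.sum_le_sum fun t _ => ?_
  split_ifs
  · rw [abs_mul, abs_of_nonneg (a := t.g.ran b) (idem_nonneg t.g.ran_idem b)]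
    calc |t.coef b| * t.g.ran b ≤ |t.coef b| * 1 :=
          mul_le_mul_of_nonneg_left (idem_le_one t.g.ran_idem b) (abs_nonneg _)
      _ ≤ ‖t.coef‖ := by rw [mul_one]; exact t.coef.norm_coe_le_norm b
  · exact norm_nonneg _

/-! ### The operator on square summable functions -/

/-- the square summable functions -/
abbrev L2 (Ω : Type v) (κ : Type) := lp (fun _ : Ω × κ => ℂ) 2

section L2

variable [Fintype κ]

/-- the kernel applied to a function -/
def kerVec (S : GOp T ι κ) (v : Ω × κ → ℂ) (x : Ω × ι) : ℂ :=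
  ∑ y ∈ reach S x.1 ×ˢ (Finset.univ : Finset κ), (S.ker x y : ℂ) * v y

lemma kerVec_eq (S : GOp T ι κ) (v : Ω × κ → ℂ) (x : Ω × ι) {t : Finset (Ω × κ)}
    (ht : reach S x.1 ×ˢ (Finset.univ : Finset κ) ⊆ t) :
    S.kerVec v x = ∑ y ∈ t, (S.ker x y : ℂ) * v y := by
  refine Finset.sum_subset ht fun y _ hy => ?_
  rw [ker_eq_zero (fun h => hy (Finset.mem_product.2 ⟨h, Finset.mem_univ _⟩))]
  simp

omit [Fintype κ] in
lemma sum_sq_re_im_le (v : L2 Ω κ) (t : Finset (Ω × κ)) :
    ∑ y ∈ t, ((v y).re ^ 2 + (v y).im ^ 2) ≤ ‖v‖ ^ 2 := by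
  have h2 := lp.sum_rpow_le_norm_rpow (p := 2) (by norm_num) v t
  simp only [ENNReal.toReal_ofNat, Real.rpow_two] at h2
  refine le_trans (le_of_eq (Finset.sum_congr rfl fun y _ => ?_)) h2
  rw [Complex.sq_norm, Complex.normSq_apply]
  ring

omit [Fintype κ] in
lemma norm_sq_sum (k : Ω × κ → ℝ) (v : Ω × κ → ℂ) (t : Finset (Ω × κ)) :
    ‖∑ y ∈ t, (k y : ℂ) * v y‖ ^ 2
      = (∑ y ∈ t, k y * (v y).re) ^ 2 + (∑ y ∈ t, k y * (v y).im) ^ 2 := by
  rw [Complex.sq_norm, Complex.normSq_apply, Complex.re_sum, Complex.im_sum]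
  simp only [Complex.mul_re, Complex.mul_im, Complex.ofReal_re, Complex.ofReal_im, zero_mul,
    sub_zero, add_zero, sq]

lemma sum_sq_kerVec_le (S : GOp T ι κ) {c : ℝ} (hc : 0 ≤ c) (h : OpBd S.ker c) (v : L2 Ω κ)
    (s : Finset (Ω × ι)) : ∑ x ∈ s, ‖S.kerVec v x‖ ^ 2 ≤ (c * ‖v‖) ^ 2 := by
  obtain ⟨t, ht⟩ : ∃ t : Finset (Ω × κ), ∀ x ∈ s,
      reach S x.1 ×ˢ (Finset.univ : Finset κ) ⊆ t :=
    ⟨s.biUnion fun x : Ω × ι => reach S x.1 ×ˢ (Finset.univ : Finset κ), fun x hx =>
      Finset.subset_biUnion_of_mem (fun x : Ω × ι => reach S x.1 ×ˢ (Finset.univ : Finset κ)) hx⟩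
  have e : ∀ x ∈ s, ‖S.kerVec v x‖ ^ 2 = (∑ y ∈ t, S.ker x y * (v y).re) ^ 2
      + (∑ y ∈ t, S.ker x y * (v y).im) ^ 2 := fun x hx => by
    rw [kerVec_eq S v x (ht x hx), norm_sq_sum]
  have key : ∀ g : Ω × κ → ℝ, ∑ x ∈ s, (∑ y ∈ t, S.ker x y * g y) ^ 2
      ≤ c ^ 2 * ∑ y ∈ t, g y ^ 2 := fun g => by
    have := opBd_vec hc h s t g
    rw [← Real.sqrt_sq hc, ← Real.sqrt_mul (sq_nonneg c)] at this
    exact (Real.sqrt_le_sqrt_iff (mul_nonneg (sq_nonneg c)
      (Finset.sum_nonneg fun y _ => sq_nonneg _))).1 this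
  rw [Finset.sum_congr rfl e, Finset.sum_add_distrib]
  refine (add_le_add (key fun y => (v y).re) (key fun y => (v y).im)).trans ?_
  rw [← mul_add, ← Finset.sum_add_distrib, mul_pow]
  exact mul_le_mul_of_nonneg_left (sum_sq_re_im_le v t) (sq_nonneg c)

lemma memℓp_kerVec (S : GOp T ι κ) (v : L2 Ω κ) : Memℓp (S.kerVec v) 2 := by
  refine memℓp_gen' (C := (Real.sqrt (S.mass * S.tp.mass) * ‖v‖) ^ 2) fun s => ?_
  simp only [ENNReal.toReal_ofNat, Real.rpow_two]
  exact sum_sq_kerVec_le S (Real.sqrt_nonneg _)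
    (opBd_of_fbd S.mass_nonneg S.fbd_mass S.tp.fbd_mass) v s

lemma norm_kerVec_le (S : GOp T ι κ) {c : ℝ} (hc : 0 ≤ c) (h : OpBd S.ker c) (v : L2 Ω κ) :
    ‖(⟨S.kerVec v, memℓp_kerVec S v⟩ : L2 Ω ι)‖ ≤ c * ‖v‖ := by
  refine lp.norm_le_of_forall_sum_le (by norm_num) (mul_nonneg hc (norm_nonneg v)) fun s => ?_
  simp only [ENNReal.toReal_ofNat, Real.rpow_two]
  exact sum_sq_kerVec_le S hc h v s

/-- the operator with the matrix `ker S` -/
def opL (S : GOp T ι κ) : L2 Ω κ →L[ℂ] L2 Ω ι :=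
  LinearMap.mkContinuous
    { toFun := fun v => ⟨S.kerVec v, memℓp_kerVec S v⟩
      map_add' := fun v w => lp.ext <| funext fun x => by
        show S.kerVec ⇑(v + w) x = S.kerVec v x + S.kerVec w x
        simp [kerVec, mul_add, Finset.sum_add_distrib]
      map_smul' := fun a v => lp.ext <| funext fun x => by
        show S.kerVec ⇑(a • v) x = a * S.kerVec v x
        simp [kerVec, Finset.mul_sum, mul_left_comm] }
    (Real.sqrt (S.mass * S.tp.mass))
    fun v => norm_kerVec_le S (Real.sqrt_nonneg _)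
      (opBd_of_fbd S.mass_nonneg S.fbd_mass S.tp.fbd_mass) v

lemma opL_apply (S : GOp T ι κ) (v : L2 Ω κ) (x : Ω × ι) : S.opL v x = S.kerVec v x := rfl

/-- the matrix -/
lemma opL_single (S : GOp T ι κ) (y : Ω × κ) (x : Ω × ι) :
    S.opL (lp.single 2 y (1 : ℂ)) x = S.ker x y := by
  rw [opL_apply, kerVec_eq S _ x (Finset.subset_insert y _),
    Finset.sum_eq_single y (fun z _ hz => by rw [lp.single_apply_ne _ _ _ hz, mul_zero])
      (fun h => absurd (Finset.mem_insert_self _ _) h), lp.single_apply_self, mul_one]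

lemma l2_ext {Γ : Type} {A B : L2 Ω κ →L[ℂ] L2 Ω Γ}
    (h : ∀ y x, A (lp.single 2 y (1 : ℂ)) x = B (lp.single 2 y (1 : ℂ)) x) : A = B := by
  refine lp.ext_continuousLinearMap (by norm_num) fun y => ContinuousLinearMap.ext fun z => ?_
  show A (lp.single 2 y z) = B (lp.single 2 y z)
  have e : lp.single (E := fun _ : Ω × κ => ℂ) 2 y z = z • lp.single 2 y (1 : ℂ) := by
    rw [← lp.single_smul, smul_eq_mul, mul_one]
  rw [e, map_smul, map_smul, show A (lp.single 2 y (1 : ℂ)) = B (lp.single 2 y (1 : ℂ)) from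
    lp.ext (funext (h y))]

lemma opL_congr {S R : GOp T ι κ} (h : ∀ x y, S.ker x y = R.ker x y) : S.opL = R.opL :=
  l2_ext fun y x => by rw [opL_single, opL_single, h]

lemma ker_eq_of_opL {S R : GOp T ι κ} (h : S.opL = R.opL) (x : Ω × ι) (y : Ω × κ) :
    S.ker x y = R.ker x y := by
  have := congrArg (fun A : L2 Ω κ →L[ℂ] L2 Ω ι => A (lp.single 2 y (1 : ℂ)) x) h
  simpa only [opL_single, Complex.ofReal_inj] using this

lemma opL_add (S R : GOp T ι κ) : (S.add R).opL = S.opL + R.opL :=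
  l2_ext fun y x => by
    show _ = S.opL _ x + R.opL _ x
    rw [opL_single, opL_single, opL_single, ker_add, Complex.ofReal_add]

lemma opL_smul (a : ℝ) (S : GOp T ι κ) : (S.smul a).opL = a • S.opL :=
  l2_ext fun y x => by
    show _ = a • S.opL _ x
    rw [opL_single, opL_single, FormKer.ker_smul, Complex.ofReal_mul, Complex.real_smul]

lemma opL_mul [Fintype lab] (S : GOp T ι κ) (R : GOp T κ lab) :
    (S.mul R).opL = S.opL.comp R.opL :=
  l2_ext fun z x => by
    rw [opL_single, ContinuousLinearMap.comp_apply, opL_apply, kerVec,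
      ker_mul S R x z (Finset.Subset.refl _), Complex.ofReal_sum]
    simp only [opL_single, Complex.ofReal_mul]

lemma opL_diag_one : (diag (T := T) fun _ : κ => (1 : C(Ω, ℝ))).opL = 1 :=
  l2_ext fun y x => by
    rw [opL_single, ker_diag]
    show _ = lp.single (E := fun _ : Ω × κ => ℂ) 2 y (1 : ℂ) x
    by_cases h : x = y
    · subst h; simp
    · rw [if_neg h, lp.single_apply_ne _ _ _ h, Complex.ofReal_zero]

lemma opL_pow (S : GOp T κ κ) : ∀ n : ℕ, (S.pow n).opL = S.opL ^ n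
  | 0 => by rw [pow_zero]; exact opL_diag_one
  | n + 1 => by rw [pow, opL_mul, opL_pow S n, pow_succ']; rfl

lemma opL_tp [Fintype ι] (S : GOp T ι κ) : S.tp.opL = ContinuousLinearMap.adjoint S.opL :=
  l2_ext fun x y => by
    rw [opL_single, FormKer.ker_tp]
    have e := ContinuousLinearMap.adjoint_inner_right S.opL
      (lp.single (E := fun _ : Ω × κ => ℂ) 2 y (1 : ℂ))
      (lp.single (E := fun _ : Ω × ι => ℂ) 2 x (1 : ℂ))
    rw [lp.inner_single_left, lp.inner_single_right, opL_single] at e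
    simpa using e.symm

/-- a bound for the kernel bounds the operator -/
lemma norm_opL_le (S : GOp T ι κ) {c : ℝ} (hc : 0 ≤ c) (h : OpBd S.ker c) : ‖S.opL‖ ≤ c :=
  ContinuousLinearMap.opNorm_le_bound _ hc fun v => norm_kerVec_le S hc h v

/-- a bound for the operator bounds the kernel -/
lemma opBd_of_norm_le {S : GOp T ι κ} {c : ℝ} (h : ‖S.opL‖ ≤ c) : OpBd S.ker c := by
  intro s t f g
  set F : L2 Ω ι := ∑ x ∈ s, lp.single 2 x ((f x : ℂ)) with hF
  set G : L2 Ω κ := ∑ y ∈ t, lp.single 2 y ((g y : ℂ)) with hG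
  have hnF : ‖F‖ = Real.sqrt (∑ x ∈ s, f x ^ 2) := by
    have := lp.norm_sum_single (E := fun _ : Ω × ι => ℂ) (p := 2) (by norm_num) (fun x => (f x : ℂ)) s
    simp only [ENNReal.toReal_ofNat, Real.rpow_two, Complex.norm_real, Real.norm_eq_abs, sq_abs,
      ← hF] at this
    rw [← this, Real.sqrt_sq (norm_nonneg F)]
  have hnG : ‖G‖ = Real.sqrt (∑ y ∈ t, g y ^ 2) := by
    have := lp.norm_sum_single (E := fun _ : Ω × κ => ℂ) (p := 2) (by norm_num) (fun y => (g y : ℂ)) t
    simp only [ENNReal.toReal_ofNat, Real.rpow_two, Complex.norm_real, Real.norm_eq_abs, sq_abs,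
      ← hG] at this
    rw [← this, Real.sqrt_sq (norm_nonneg G)]
  have e : ⟪F, S.opL G⟫_ℂ = ((∑ x ∈ s, ∑ y ∈ t, f x * S.ker x y * g y : ℝ) : ℂ) := by
    rw [hF, sum_inner, Complex.ofReal_sum]
    refine Finset.sum_congr rfl fun x _ => ?_
    rw [lp.inner_single_left, hG, map_sum, lp.coeFn_sum, Finset.sum_apply, inner_sum,
      Complex.ofReal_sum]
    refine Finset.sum_congr rfl fun y _ => ?_
    have e1 : lp.single (E := fun _ : Ω × κ => ℂ) 2 y ((g y : ℂ))
        = (g y : ℂ) • lp.single 2 y (1 : ℂ) := by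
      rw [← lp.single_smul, smul_eq_mul, mul_one]
    rw [e1, map_smul, lp.coeFn_smul, Pi.smul_apply, opL_single, RCLike.inner_apply]
    simp only [smul_eq_mul, Complex.conj_ofReal, Complex.ofReal_mul]
    ring
  have h1 := norm_inner_le_norm (𝕜 := ℂ) F (S.opL G)
  rw [e, Complex.norm_real, Real.norm_eq_abs] at h1
  refine h1.trans ?_
  rw [← hnF, ← hnG, mul_comm c, mul_assoc]
  exact mul_le_mul_of_nonneg_left ((S.opL.le_opNorm G).trans
    (mul_le_mul_of_nonneg_right h (norm_nonneg _))) (norm_nonneg _)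

end L2

/-- a real polynomial in a square operator -/
def polyOp [Fintype κ] (p : Polynomial ℝ) (X : GOp T κ κ) : GOp T κ κ :=
  (List.range (p.natDegree + 1)).flatMap fun n => smul (p.coeff n) (pow X n)

lemma opL_polyOp [Fintype κ] (p : Polynomial ℝ) (X : GOp T κ κ) :
    (polyOp p X).opL = Polynomial.aeval X.opL p := by
  have key : ∀ N, opL ((List.range N).flatMap fun n => smul (p.coeff n) (pow X n))
      = ∑ n ∈ Finset.range N, p.coeff n • X.opL ^ n := by
    intro N
    induction N with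
    | zero => exact l2_ext fun y x => by simp [opL_single, ker]
    | succ N ih =>
      rw [List.range_succ, List.flatMap_append, List.flatMap_cons, List.flatMap_nil,
        List.append_nil, Finset.sum_range_succ, ← ih, ← opL_pow, ← opL_smul]
      exact opL_add _ _
  rw [polyOp, key, Polynomial.aeval_eq_sum_range]

/-- polynomial calculus: a symmetric kernel with quadratic form in `[0, 1]` -/
lemma opBd_polyOp [Fintype κ] (p : Polynomial ℝ) {X : GOp T κ κ} {c : ℝ} (hc : 0 ≤ c)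
    (h0 : 0 ≤ X.opL) (h1 : X.opL ≤ 1) (hp : ∀ s ∈ Set.Icc (0 : ℝ) 1, |p.eval s| ≤ c) :
    OpBd (polyOp p X).ker c := by
  refine opBd_of_norm_le ?_
  rw [opL_polyOp]
  exact norm_aeval_le X.opL hc h0 h1 p hp

end GOp

end Vale.Agent.P078.T3
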