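import Mathlib
import Vale.Agent.P078.Type3.Graph.Kernel
import Vale.Agent.P078.Type3.Graph.Fixed
import Vale.Agent.P078.Type3.Step.OpsSpecs

/-! The Schur, symmetry and level facts about graph operators. -/

noncomputable section

open scoped ComplexOrder InnerProductSpace
open Classical Filter

set_option linter.unusedSectionVars false

namespace Vale.Agent.P078.T3

universe u v

section Abstract

variable {H : Type*} [NormedAddCommGroup H] [InnerProductSpace ℂ H] [CompleteSpace H]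
  {H' : Type*} [NormedAddCommGroup H'] [InnerProductSpace ℂ H'] [CompleteSpace H']

lemma geom_bound {s : ℝ} (h0 : 0 ≤ s) (h1 : s ≤ 1) (m : ℕ) :
    (1 - s) * s ^ m ≤ 1 / (m + 1) := by
  rw [le_div_iff₀ (by positivity)]
  have key : ((m : ℝ) + 1) * s ^ m ≤ ∑ k ∈ Finset.range (m + 1), s ^ k := by
    calc ((m : ℝ) + 1) * s ^ m = ∑ _k ∈ Finset.range (m + 1), s ^ m := by simp
      _ ≤ _ := Finset.sum_le_sum fun k hk =>
          pow_le_pow_of_le_one h0 h1 (Nat.lt_succ_iff.1 (Finset.mem_range.1 hk))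
  have hg := mul_neg_geom_sum s (m + 1)
  have := mul_le_mul_of_nonneg_left key (sub_nonneg.2 h1)
  have h3 : (0 : ℝ) ≤ s ^ (m + 1) := pow_nonneg h0 _
  linarith

/-- the level operator `Y = 1 - A*A / B` -/
lemma lev_abstract (A : H →L[ℂ] H') {B : ℝ} (hB : 0 < B) (hA : ‖A‖ ≤ Real.sqrt B) (n : ℕ)
    (Y : H →L[ℂ] H) (hY : Y = 1 + (-(1 / B)) • ((ContinuousLinearMap.adjoint A).comp A)) :
    ContinuousLinearMap.adjoint (Y ^ n) = Y ^ n ∧ ‖Y ^ n‖ ≤ 1 ∧
      ‖A.comp (Y ^ n)‖ ≤ Real.sqrt (B / (2 * n + 1)) := by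
  set G := (ContinuousLinearMap.adjoint A).comp A with hG
  have hG0 : 0 ≤ G := (ContinuousLinearMap.nonneg_iff_isPositive G).2
    (ContinuousLinearMap.isPositive_adjoint_comp_self A)
  have hGn : ‖G‖ ≤ B := by
    rw [hG, ContinuousLinearMap.norm_adjoint_comp_self, ← Real.mul_self_sqrt hB.le]
    exact mul_self_le_mul_self (norm_nonneg _) hA
  have hGB : G ≤ B • (1 : H →L[ℂ] H) := by
    refine (IsSelfAdjoint.le_algebraMap_norm_self (IsSelfAdjoint.of_nonneg hG0)).trans ?_
    rw [Algebra.algebraMap_eq_smul_one]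
    exact smul_le_smul_of_nonneg_right hGn zero_le_one
  have hY0 : 0 ≤ Y := by
    have := smul_le_smul_of_nonneg_left hGB (show (0 : ℝ) ≤ 1 / B by positivity)
    rw [smul_smul, one_div_mul_cancel hB.ne', one_smul] at this
    rw [hY, neg_smul, ← sub_eq_add_neg]
    exact sub_nonneg.2 this
  have hY1 : Y ≤ 1 := by
    rw [hY, neg_smul, ← sub_eq_add_neg]
    exact sub_le_self _ (smul_nonneg (by positivity) hG0)
  have hsa : IsSelfAdjoint Y := IsSelfAdjoint.of_nonneg hY0
  have hspec : ∀ s ∈ spectrum ℝ Y, 0 ≤ s ∧ s ≤ 1 := fun s hs =>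
    ⟨spectrum_nonneg_of_nonneg hY0 hs, (CFC.le_one_iff (R := ℝ) Y).1 hY1 s hs⟩
  have hadj : ContinuousLinearMap.adjoint (Y ^ n) = Y ^ n := by
    rw [← ContinuousLinearMap.star_eq_adjoint]
    exact (hsa.pow n).star_eq
  refine ⟨hadj, ?_, ?_⟩
  · rw [← cfc_pow_id (R := ℝ) Y n hsa]
    refine norm_cfc_le zero_le_one fun s hs => ?_
    rw [Real.norm_eq_abs, abs_pow, abs_of_nonneg (hspec s hs).1]
    exact pow_le_one₀ (hspec s hs).1 (hspec s hs).2
  · have e : (ContinuousLinearMap.adjoint (A.comp (Y ^ n))).comp (A.comp (Y ^ n))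
        = B • ((1 - Y) * Y ^ (2 * n)) := by
      have h1 : B • (1 - Y) = G := by
        rw [hY, neg_smul, sub_add_eq_sub_sub, sub_self, zero_sub, neg_neg, smul_smul,
          mul_one_div_cancel hB.ne', one_smul]
      have hc : Commute (Y ^ n) (1 - Y) :=
        ((Commute.one_right Y).sub_right (Commute.refl Y)).pow_left n
      rw [ContinuousLinearMap.adjoint_comp, hadj]
      show Y ^ n * G * Y ^ n = _
      rw [← h1, mul_smul_comm, smul_mul_assoc, hc.eq, mul_assoc, ← pow_add, ← two_mul]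
    have e2 : (1 - Y) * Y ^ (2 * n) = cfc (fun s : ℝ => (1 - s) * s ^ (2 * n)) Y := by
      rw [cfc_mul _ _ Y, cfc_sub _ _ Y, cfc_pow_id (R := ℝ) Y, cfc_id' ℝ Y,
        cfc_const_one ℝ Y]
    have h3 : ‖(1 - Y) * Y ^ (2 * n)‖ ≤ 1 / (2 * n + 1) := by
      rw [e2]
      refine norm_cfc_le (by positivity) fun s hs => ?_
      obtain ⟨a, b⟩ := hspec s hs
      rw [Real.norm_eq_abs, abs_of_nonneg (mul_nonneg (sub_nonneg.2 b) (pow_nonneg a _))]
      exact_mod_cast geom_bound a b (2 * n)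
    refine Real.le_sqrt_of_sq_le ?_
    rw [sq, ← ContinuousLinearMap.norm_adjoint_comp_self, e, norm_smul, Real.norm_eq_abs,
      abs_of_pos hB, div_eq_mul_one_div]
    exact mul_le_mul_of_nonneg_left h3 hB.le

end Abstract

/-- restricting the rows along an injection keeps a bound -/
lemma opBd_comap {X X' Y : Type*} {k : X → Y → ℝ} {k' : X' → Y → ℝ} {c : ℝ} (e : X' ↪ X)
    (h : ∀ x y, k' x y = k (e x) y) (hk : OpBd k c) : OpBd k' c := by
  intro s t f g
  have := hk (s.map e) t (Function.extend e f 0) g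
  simp only [Finset.sum_map, e.injective.extend_apply, ← h] at this
  exact this

variable {M : Type u} [CStarAlgebra M] [PartialOrder M] [StarOrderedRing M]
  {Ω : Type v} [TopologicalSpace Ω] [CompactSpace Ω] [T2Space Ω]

namespace GOp

variable {T : SMasa M Ω} {κ : Type}

open FormKer

lemma ker_rowSel {r : ℕ} (S : GOp T (Fin r) (Fin r)) (i : Fin r) (b : Ω) (y : Ω × Fin r) :
    (rowSel S i).ker (b, ()) y = S.ker (b, i) y := by
  induction S with
  | nil => simp [rowSel, ker]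
  | cons t S ih =>
    simp only [rowSel, ker] at ih ⊢
    by_cases h : t.row = i <;> simp [h] <;> simpa using ih

/-- an operator with a single row label, with that label in `Fin 1` -/
def toFin (S : GOp T Unit κ) : GOp T (Fin 1) κ := S.map fun t => ⟨0, t.col, t.coef, t.g⟩

lemma app_toFin (S : GOp T Unit κ) (u : κ → C(Ω, ℝ)) : (toFin S).app u 0 = S.app u () := by
  simp [toFin, app, List.map_map, Function.comp_def]

lemma ker_toFin (S : GOp T Unit κ) (b : Ω) (i : Fin 1) (y : Ω × κ) :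
    (toFin S).ker (b, i) y = S.ker (b, ()) y := by
  simp [toFin, ker, List.map_map, Function.comp_def, Subsingleton.elim i 0]

lemma ker_mul_tp [Fintype κ] {ι : Type} (S : GOp T ι κ) {c : ℝ} (h : OpBd S.ker c) (x : Ω × ι) :
    0 ≤ (S.mul S.tp).ker x x ∧ (S.mul S.tp).ker x x ≤ c ^ 2 := by
  rw [ker_mul S S.tp x x (Finset.Subset.refl _)]
  simp only [FormKer.ker_tp, ← sq]
  exact ⟨Finset.sum_nonneg fun y _ => sq_nonneg _, opBd_row h x _⟩

end GOp

open GOp

/-- a formally bounded operator is bounded -/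
theorem schurSpec (T : SMasa M Ω) : SchurSpec T := fun _ _ _ ha _ hS hS' =>
  GOp.opBd_of_fbd ha hS hS'

/-- a symmetric kernel gives the same action as its transpose -/
theorem symSpec (T : SMasa M Ω) : SymSpec T := fun K hK f => by
  have h := GOp.app_congr (S := K.tp) (S' := K)
    (fun x y => by rw [FormKer.ker_tp]; exact hK y x) fun _ => f
  exact congrFun h ()

/-- the spectral facts about `(1 - Tm^t Tm / B) ^ n` -/
theorem levSpec (T : SMasa M Ω) : LevSpec T := by
  intro r Tm B n hB hTm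
  set y := yOp Tm B with hy
  have hYL : y.opL = 1 + (-(1 / B)) •
      ((ContinuousLinearMap.adjoint Tm.opL).comp Tm.opL) := by
    rw [hy, yOp, opL_add, opL_diag_one, opL_smul, opL_mul, opL_tp]
  have hA : ‖Tm.opL‖ ≤ Real.sqrt B := norm_opL_le Tm (Real.sqrt_nonneg _) hTm
  obtain ⟨hadj, hn1, hn2⟩ := lev_abstract Tm.opL hB hA n y.opL hYL
  have hb1 : OpBd (y.pow n).ker 1 := opBd_of_norm_le (by rwa [opL_pow])
  refine ⟨fun i => opBd_comap ⟨fun x : Ω × Unit => (x.1, i), fun a b h => by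
    obtain ⟨a, ⟨⟩⟩ := a; obtain ⟨b, ⟨⟩⟩ := b; simpa using h⟩
    (fun x z => ker_rowSel _ i x.1 z) hb1, ?_⟩
  choose d hd using fun i : Fin r => exists_diag (levOp Tm B (2 * n)) i
  have hpow : ∀ x, (y.pow (2 * n)).ker x x = ((y.pow n).mul (y.pow n).tp).ker x x := fun x => by
    refine ker_eq_of_opL ?_ x x
    rw [opL_mul, opL_tp, opL_pow, opL_pow, hadj, two_mul, pow_add]
    rfl
  have hd' : ∀ i b, d i b = 1 - ((y.pow n).mul (y.pow n).tp).ker (b, i) (b, i) := fun i b => by
    rw [hd, levOp, GOp.ker_add, GOp.ker_diag, FormKer.ker_smul, if_pos rfl, ← hy, hpow]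
    simp [sub_eq_add_neg]
  refine ⟨d, hd, fun i b => ?_, ?_⟩
  · have h := ker_mul_tp _ hb1 (b, i)
    rw [hd']
    constructor <;> linarith [h.1, h.2]
  · filter_upwards [exactSpec T (y.pow n), exactSpec T (toFin (Tm.mul (y.pow n)))] with P h1 h2
    refine ⟨fun i b => by rw [h1 i b, hd']; ring, fun b => ?_⟩
    have h3 := h2 0 b
    simp only [app_toFin, app_mul] at h3
    refine h3.trans_le ?_
    have h4 : OpBd (toFin (Tm.mul (y.pow n))).ker (Real.sqrt (B / (2 * n + 1))) :=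
      opBd_comap ⟨fun x : Ω × Fin 1 => (x.1, ()), fun a b h => by
        obtain ⟨a, i⟩ := a; obtain ⟨b, j⟩ := b
        simp only [Prod.mk.injEq, and_true] at h
        rw [h, Subsingleton.elim i j]⟩
      (fun x z => ker_toFin _ x.1 x.2 z)
        (opBd_of_norm_le (S := Tm.mul (y.pow n)) (by rwa [opL_mul, opL_pow]))
    refine (ker_mul_tp _ h4 (b, 0)).2.trans (le_of_eq ?_)
    rw [Real.sq_sqrt (by positivity)]

end Vale.Agent.P078.T3
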