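import Mathlib
import Vale.Agent.P078.Type3.Step.OpsSpecs
import Vale.Agent.P078.Type3.Graph.Fixed

/-! Transport of subordinate families by graph operators and the column bound. -/

noncomputable section

open scoped ComplexOrder
open Classical Filter

set_option linter.unusedSectionVars false

namespace Vale.Agent.P078.T3

universe u v

variable {M : Type u} [CStarAlgebra M] [PartialOrder M] [StarOrderedRing M]
  {Ω : Type v} [TopologicalSpace Ω] [CompactSpace Ω] [T2Space Ω] {T : SMasa M Ω}

namespace GElt

/-- the partition made of the pulled back cells of `P` inside the range and of `Q` outside -/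
def glue (g : GElt T) (P Q : Part Ω) : Part Ω where
  n := P.n + Q.n
  e := Fin.append (fun e => g.ran * (P.e e).comp g.toDom) fun i => (1 - g.ran) * Q.e i
  isPartition := by
    refine ⟨fun q => ?_, fun q q' h => ?_, ?_⟩
    · refine Fin.addCases (fun e => ?_) (fun i => ?_) q
      · simp only [Fin.append_left]
        rw [mul_mul_mul_comm, g.ran_idem, ← ContinuousMap.mul_comp, P.isPartition.idem]
      · simp only [Fin.append_right]
        linear_combination (Q.e i) ^ 2 * g.ran_idem + (1 - g.ran) * (Q.isPartition.idem i)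
    · revert h
      refine Fin.addCases (fun e => ?_) (fun i => ?_) q <;>
        refine Fin.addCases (fun e' => ?_) (fun i' => ?_) q' <;> intro h <;>
        simp only [Fin.append_left, Fin.append_right]
      · rw [mul_mul_mul_comm, ← ContinuousMap.mul_comp,
          P.isPartition.orth e e' (fun hh => h (by rw [hh])), ContinuousMap.zero_comp, mul_zero]
      · linear_combination -(P.e e).comp g.toDom * Q.e i' * g.ran_idem
      · linear_combination -(P.e e').comp g.toDom * Q.e i * g.ran_idem
      · rw [mul_mul_mul_comm, Q.isPartition.orth i i' (fun hh => h (by rw [hh])), mul_zero]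
    · rw [Fin.sum_univ_add]
      simp only [Fin.append_left, Fin.append_right]
      rw [← Finset.mul_sum, ← Finset.mul_sum, Q.isPartition.sum_one]
      have : (∑ e, (P.e e).comp g.toDom) = 1 := by
        ext b
        simpa [ContinuousMap.sum_apply] using DFunLike.congr_fun P.isPartition.sum_one (g.toDom b)
      rw [this]
      ring

lemma glue_left (g : GElt T) (P Q : Part Ω) (e : Fin P.n) :
    (g.glue P Q).e (Fin.castAdd Q.n e) = g.ran * (P.e e).comp g.toDom :=
  Fin.append_left (fun e => g.ran * (P.e e).comp g.toDom) (fun i => (1 - g.ran) * Q.e i) e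

lemma glue_right (g : GElt T) (P Q : Part Ω) (i : Fin Q.n) :
    (g.glue P Q).e (Fin.natAdd P.n i) = (1 - g.ran) * Q.e i :=
  Fin.append_right (fun e => g.ran * (P.e e).comp g.toDom) (fun i => (1 - g.ran) * Q.e i) i

lemma le_glue (g : GElt T) {P Q : Part Ω} (h : g.inv.glue Q Q ≤ P) : Q ≤ g.glue P Q := by
  intro q j
  refine Fin.addCases (fun e => ?_) (fun i => ?_) q
  · rw [glue_left]
    have hh := h e (Fin.castAdd Q.n j)
    rw [glue_left] at hh
    have key : ∀ b, g.ran b = 1 →
        (g.inv.ran * (Q.e j).comp g.inv.toDom) (g.toDom b) = Q.e j b := fun b hb => by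
      show g.dom (g.toDom b) * Q.e j (g.toRan (g.toDom b)) = Q.e j b
      rw [g.dom_toDom b hb, g.toRan_toDom b hb, one_mul]
    rcases hh with h1 | h1
    · left
      ext b
      simp only [ContinuousMap.mul_apply, ContinuousMap.comp_apply]
      rcases idem_zero_or_one g.ran_idem b with hb | hb
      · simp [hb]
      · have h2 := DFunLike.congr_fun h1 (g.toDom b)
        rw [ContinuousMap.mul_apply, key b hb] at h2
        rw [hb, one_mul, h2]
    · right
      ext b
      simp only [ContinuousMap.mul_apply, ContinuousMap.comp_apply, ContinuousMap.zero_apply]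
      rcases idem_zero_or_one g.ran_idem b with hb | hb
      · simp [hb]
      · have h2 := DFunLike.congr_fun h1 (g.toDom b)
        rw [ContinuousMap.mul_apply, key b hb] at h2
        rw [hb, one_mul, h2]
        rfl
  · rw [glue_right]
    by_cases hij : i = j
    · left; rw [hij, mul_assoc, Q.isPartition.idem]
    · right; rw [mul_assoc, Q.isPartition.orth i j hij, mul_zero]

end GElt

lemma sq_list_sum_le {α : Type*} (L : List α) (x : α → ℝ) :
    (L.map x).sum * (L.map x).sum ≤ (L.length : ℝ) * (L.map fun t => x t * x t).sum := by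
  rw [GOp.sum_map_eq_fin, GOp.sum_map_eq_fin]
  have h := sq_sum_le_card_mul_sum_sq (s := (Finset.univ : Finset (Fin L.length)))
    (f := fun s => x L[s])
  simpa [sq] using h

lemma tau_list_sum (L : List C(Ω, ℝ)) : T.tau L.sum = (L.map T.tau).sum := by
  induction L with
  | nil => simp
  | cons f L ih => simp [ih]

lemma sum_list_sum {α β : Type*} [Fintype β] (L : List α) (F : α → β → ℝ) :
    ∑ e, (L.map fun t => F t e).sum = (L.map fun t => ∑ e, F t e).sum := by
  induction L with
  | nil => simp
  | cons a L ih => simp [Finset.sum_add_distrib, ih]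

lemma list_sum_const_mul {α : Type*} (L : List α) (c : ℝ) (f : α → ℝ) :
    (L.map fun t => c * f t).sum = c * (L.map f).sum := by
  induction L with
  | nil => simp
  | cons a L ih => simp [ih, mul_add]

/-- transport of smallness on subordinate families -/
theorem transportSpec (T : SMasa M Ω) : TransportSpec T := by
  intro k S R η hη hR
  obtain ⟨Q₀, hQ₀⟩ := eventually_atTop.1 hR
  filter_upwards [(eventually_all_finite (List.finite_toSet S)).2 fun t _ =>
    eventually_ge_atTop (t.g.inv.glue Q₀ Q₀)] with P hP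
  have hterm : ∀ t ∈ S, ∑ e, T.tau (R (t.coef * t.g.ran * (P.e e).comp t.g.toDom)
      * R (t.coef * t.g.ran * (P.e e).comp t.g.toDom)) ≤ ‖t.coef‖ ^ 2 * η := by
    intro t ht
    set c := ‖t.coef‖ with hc
    let F : Fin (t.g.glue P Q₀).n → C(Ω, ℝ) :=
      Fin.append (fun e => c⁻¹ • (t.coef * t.g.ran * (P.e e).comp t.g.toDom)) fun _ => 0
    have hF : ∀ q ω, |F q ω| ≤ (t.g.glue P Q₀).e q ω := by
      intro q ω
      refine Fin.addCases (fun e => ?_) (fun i => ?_) q
      · rw [GElt.glue_left]
        simp only [F, Fin.append_left, ContinuousMap.smul_apply, ContinuousMap.mul_apply,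
          ContinuousMap.comp_apply, smul_eq_mul]
        have h1 : 0 ≤ t.g.ran ω := idem_nonneg t.g.ran_idem ω
        have h2 : 0 ≤ P.e e (t.g.toDom ω) := idem_nonneg (P.isPartition.idem e) (t.g.toDom ω)
        have h3 : |c⁻¹ * t.coef ω| ≤ 1 := by
          have h4 : |t.coef ω| ≤ c := t.coef.norm_coe_le_norm ω
          rw [abs_mul, abs_inv, abs_of_nonneg (norm_nonneg _)]
          exact (mul_le_mul_of_nonneg_left h4 (inv_nonneg.2 (norm_nonneg _))).trans inv_mul_le_one
        rw [show c⁻¹ * (t.coef ω * t.g.ran ω * P.e e (t.g.toDom ω))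
          = (c⁻¹ * t.coef ω) * (t.g.ran ω * P.e e (t.g.toDom ω)) by ring, abs_mul,
          abs_of_nonneg (mul_nonneg h1 h2)]
        exact mul_le_of_le_one_left (mul_nonneg h1 h2) h3
      · simp only [F, Fin.append_right, ContinuousMap.zero_apply, abs_zero]
        exact idem_nonneg ((t.g.glue P Q₀).isPartition.idem _) ω
    have h5 := hQ₀ (t.g.glue P Q₀) (GElt.le_glue t.g (hP t ht)) F hF
    have h6 : ∑ q, T.tau (R (F q) * R (F q))
        = ∑ e, T.tau (R (c⁻¹ • (t.coef * t.g.ran * (P.e e).comp t.g.toDom))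
            * R (c⁻¹ • (t.coef * t.g.ran * (P.e e).comp t.g.toDom))) := by
      show ∑ q : Fin (P.n + Q₀.n), _ = _
      rw [Fin.sum_univ_add]
      simp [F]
    rw [h6] at h5
    refine le_trans (le_of_eq ?_) (mul_le_mul_of_nonneg_left h5 (sq_nonneg c))
    rw [Finset.mul_sum]
    refine Finset.sum_congr rfl fun e _ => ?_
    have h7 : t.coef * t.g.ran * (P.e e).comp t.g.toDom
        = c • (c⁻¹ • (t.coef * t.g.ran * (P.e e).comp t.g.toDom)) := by
      rw [smul_smul]
      by_cases h0 : c = 0
      · have : t.coef = 0 := norm_eq_zero.1 h0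
        simp [this]
      · rw [mul_inv_cancel₀ h0, one_smul]
    conv_lhs => rw [h7]
    rw [map_smul, smul_mul_smul_comm, map_smul, smul_eq_mul, ← sq]
  let x : Term T Unit (Fin k) → Fin k → Fin P.n → C(Ω, ℝ) := fun t j e =>
    if t.col = j then t.coef * t.g.ran * (P.e e).comp t.g.toDom else 0
  have happ : ∀ j e, S.app (Pi.single j (P.e e)) () = (S.map fun t => x t j e).sum := by
    intro j e
    rw [GOp.app]
    congr 1
    refine List.map_congr_left fun t _ => ?_
    simp only [x]
    by_cases h : t.col = j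
    · subst h; simp
    · simp [h, Pi.single_eq_of_ne h]
  have hje : ∀ j e, T.tau (R (S.app (Pi.single j (P.e e)) ()) * R (S.app (Pi.single j (P.e e)) ()))
      ≤ (S.length : ℝ) * (S.map fun t => T.tau (R (x t j e) * R (x t j e))).sum := by
    intro j e
    rw [happ, map_list_sum, List.map_map]
    have h8 : (S.map fun t => T.tau (R (x t j e) * R (x t j e))).sum
        = T.tau (S.map fun t => R (x t j e) * R (x t j e)).sum := by
      rw [tau_list_sum, List.map_map]; rfl
    rw [h8, ← smul_eq_mul (S.length : ℝ) (T.tau _), ← map_smul]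
    refine T.tau_mono fun ω => ?_
    show _ ≤ (S.length : ℝ) * _
    simp only [ContinuousMap.toFun_eq_coe, GOp.list_sum_apply, List.map_map, Function.comp_def,
      ContinuousMap.mul_apply]
    exact sq_list_sum_le S fun t => R (x t j e) ω
  calc ∑ j, ∑ e, T.tau (R (S.app (Pi.single j (P.e e)) ()) * R (S.app (Pi.single j (P.e e)) ()))
      ≤ ∑ j, ∑ e, (S.length : ℝ) * (S.map fun t => T.tau (R (x t j e) * R (x t j e))).sum :=
        Finset.sum_le_sum fun j _ => Finset.sum_le_sum fun e _ => hje j e
    _ = (S.length : ℝ) * (S.map fun t => ∑ e, T.tau (R (t.coef * t.g.ran * (P.e e).comp t.g.toDom)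
          * R (t.coef * t.g.ran * (P.e e).comp t.g.toDom))).sum := by
        simp only [← Finset.mul_sum, sum_list_sum]
        congr 2
        refine List.map_congr_left fun t _ => ?_
        rw [Finset.sum_eq_single t.col (fun j _ hj => ?_) (by simp)]
        · simp [x]
        · simp [x, Ne.symm hj]
    _ ≤ (S.length : ℝ) * (S.map fun t => η * ‖t.coef‖ ^ 2).sum :=
        mul_le_mul_of_nonneg_left (List.sum_le_sum fun t ht =>
          (hterm t ht).trans_eq (mul_comm _ _)) (Nat.cast_nonneg _)
    _ = (S.length : ℝ) * (S.map fun t => ‖t.coef‖ ^ 2).sum * η := by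
        rw [list_sum_const_mul]; ring

/-- the transposed row at an image point -/
lemma tp_row_ge {K : GOp T Unit Unit} (hK : ∀ t ∈ K, 0 ≤ t.coef) {W : C(Ω, ℝ)} {μ : ℝ}
    (hW : ∀ a, μ ≤ W a) (hμ : 0 < μ) (g₀ : GElt T) (b : Ω) (hb : g₀.ran b = 1) :
    μ * g₀.dens' (g₀.toDom b) * (∑ t : Fin K.length,
        if K[t].g.toDom b = g₀.toDom b then K[t].coef b * K[t].g.ran b else 0)
      ≤ K.tp.wgt.app1 W (g₀.toDom b) := by
  have key : ∀ t ∈ K, μ * g₀.dens' (g₀.toDom b) *
      (if t.g.toDom b = g₀.toDom b then t.coef b * t.g.ran b else 0)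
      ≤ t.coef (t.g.toRan (g₀.toDom b)) * t.g.dens' (g₀.toDom b) * t.g.dom (g₀.toDom b)
        * W (t.g.toRan (g₀.toDom b)) := by
    intro t ht
    have hc : 0 ≤ t.coef (t.g.toRan (g₀.toDom b)) := hK t ht _
    have hn : 0 ≤ t.g.dom (g₀.toDom b) := idem_nonneg t.g.dom_idem _
    have hd := (t.g.dens'_pos (g₀.toDom b)).le
    have hW0 : 0 ≤ W (t.g.toRan (g₀.toDom b)) := hμ.le.trans (hW _)
    have hz : μ * g₀.dens' (g₀.toDom b) * 0 ≤ t.coef (t.g.toRan (g₀.toDom b))
        * t.g.dens' (g₀.toDom b) * t.g.dom (g₀.toDom b) * W (t.g.toRan (g₀.toDom b)) := by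
      rw [mul_zero]; positivity
    split_ifs with h
    swap
    · exact hz
    rcases idem_zero_or_one t.g.ran_idem b with hr | hr
    · rw [hr, mul_zero]; exact hz
    have e1 : t.g.dom (g₀.toDom b) = 1 := by rw [← h]; exact t.g.dom_toDom b hr
    have e2 : t.g.toRan (g₀.toDom b) = b := by rw [← h]; exact t.g.toRan_toDom b hr
    have e4 : t.g.dens' (g₀.toDom b) = g₀.dens' (g₀.toDom b) := by
      have h1 := t.g.dens_inv b hr
      rw [h, densSpec T _ _ b hr hb h] at h1
      exact mul_left_cancel₀ (g₀.dens_pos b).ne' (h1.trans (g₀.dens_inv b hb).symm)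
    rw [e2] at hc
    rw [hr, e1, e2, e4, mul_one, mul_one]
    calc μ * g₀.dens' (g₀.toDom b) * t.coef b = t.coef b * g₀.dens' (g₀.toDom b) * μ := by ring
      _ ≤ _ := mul_le_mul_of_nonneg_left (hW b) (mul_nonneg hc (g₀.dens'_pos _).le)
  rw [GOp.app1_apply]
  simp only [GOp.wgt, GOp.tp, List.map_map]
  rw [GOp.sum_map_eq_fin, Finset.mul_sum]
  exact Finset.sum_le_sum fun t _ => key _ (List.getElem_mem t.2)

/-- the column bound -/
theorem colSpec (T : SMasa M Ω) : ColSpec T := by
  intro K on W μ c hμ hc hK hon hW hcol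
  filter_upwards [sepSpec T (K.map fun t => t.g)] with P hP
  intro b
  let w : Fin K.length → ℝ := fun s => K[s].coef b * K[s].g.ran b * on (K[s].g.toDom b)
  have hw0 : ∀ s, 0 ≤ w s := fun s =>
    mul_nonneg (mul_nonneg (hK _ (List.getElem_mem s.2) b) (idem_nonneg K[s].g.ran_idem b))
      (idem_nonneg hon _)
  have hwne : ∀ s, w s ≠ 0 → K[s].g.ran b = 1 ∧ on (K[s].g.toDom b) = 1 := fun s hs =>
    ⟨(idem_zero_or_one K[s].g.ran_idem b).resolve_left fun h => hs (by simp only [w]; rw [h]; ring),
      (idem_zero_or_one hon _).resolve_left fun h => hs (by simp only [w]; rw [h]; ring)⟩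
  have happ : ∀ e, K.app1 (on * P.e e) b = ∑ s, w s * P.e e (K[s].g.toDom b) := by
    intro e
    rw [GOp.app1_apply, GOp.sum_map_eq_fin]
    refine Finset.sum_congr rfl fun s _ => ?_
    simp only [w, ContinuousMap.mul_apply]
    ring
  have hblock : ∀ s, ∑ t, ∑ e, (w s * P.e e (K[s].g.toDom b)) * (w t * P.e e (K[t].g.toDom b))
      ≤ w s * (c / μ * K[s].g.dens b) := by
    intro s
    by_cases hs : w s = 0
    · simp [hs]
    obtain ⟨hrs, hos⟩ := hwne s hs
    set a := K[s].g.toDom b with ha
    have hd := K[s].g.dens_inv b hrs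
    have hinner : ∀ t, ∑ e, (w s * P.e e a) * (w t * P.e e (K[t].g.toDom b))
        ≤ w s * ((if K[t].g.toDom b = a then w t else 0)) := by
      intro t
      by_cases ht : w t = 0
      · simp [ht]
      rw [Finset.sum_congr rfl fun e _ => mul_mul_mul_comm (w s) _ (w t) _, ← Finset.mul_sum]
      by_cases h : K[t].g.toDom b = a
      · rw [if_pos h, h]
        refine le_of_eq ?_
        have h1 : ∑ e, P.e e a * P.e e a = 1 := by
          have h2 := DFunLike.congr_fun P.isPartition.sum_one a
          rw [ContinuousMap.sum_apply, ContinuousMap.one_apply] at h2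
          rw [← h2]
          exact Finset.sum_congr rfl fun e _ => DFunLike.congr_fun (P.isPartition.idem e) a
        rw [h1, mul_one]
      · rw [if_neg h, mul_zero, Finset.sum_eq_zero fun e _ => ?_, mul_zero]
        rcases idem_zero_or_one (P.isPartition.idem e) a with u | u
        · rw [u, zero_mul]
        rcases idem_zero_or_one (P.isPartition.idem e) (K[t].g.toDom b) with u' | u'
        · rw [u', mul_zero]
        exact absurd (hP _ (List.mem_map.2 ⟨_, List.getElem_mem t.2, rfl⟩) _
          (List.mem_map.2 ⟨_, List.getElem_mem s.2, rfl⟩) b e (hwne t ht).1 hrs u' u) h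
    refine (Finset.sum_le_sum fun t _ => hinner t).trans ?_
    rw [← Finset.mul_sum]
    refine mul_le_mul_of_nonneg_left ?_ (hw0 s)
    have hle : (∑ t, if K[t].g.toDom b = a then w t else 0)
        ≤ ∑ t : Fin K.length, if K[t].g.toDom b = a then K[t].coef b * K[t].g.ran b else 0 := by
      refine Finset.sum_le_sum fun t _ => ?_
      split_ifs
      · rcases idem_zero_or_one hon (K[t].g.toDom b) with u | u
        · simp only [w]; rw [u, mul_zero]
          exact mul_nonneg (hK _ (List.getElem_mem t.2) b) (idem_nonneg K[t].g.ran_idem b)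
        · simp only [w]; rw [u, mul_one]
      · rfl
    have h9 := (mul_le_mul_of_nonneg_left hle
      (mul_nonneg hμ.le (K[s].g.dens'_pos a).le)).trans ((tp_row_ge hK hW hμ K[s].g b hrs).trans
        (hcol a hos))
    have h10 : 0 < μ * K[s].g.dens' a := mul_pos hμ (K[s].g.dens'_pos a)
    rw [mul_comm, ← le_div_iff₀ h10] at h9
    refine h9.trans (le_of_eq ?_)
    rw [show K[s].g.dens b = 1 / K[s].g.dens' a from eq_one_div_of_mul_eq_one_left hd]
    field_simp
  have hR : K.wgt.app1 on b = ∑ s, w s * K[s].g.dens b := by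
    rw [GOp.app1_apply, GOp.wgt, List.map_map, GOp.sum_map_eq_fin]
    refine Finset.sum_congr rfl fun s _ => ?_
    simp only [Function.comp_apply, w, ContinuousMap.mul_apply]
    ring
  simp only [happ, sq, Finset.sum_mul_sum]
  rw [hR, Finset.mul_sum, Finset.sum_comm]
  refine Finset.sum_le_sum fun s _ => ?_
  rw [Finset.sum_comm]
  exact (hblock s).trans (le_of_eq (by ring))

end Vale.Agent.P078.T3
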